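import Vale.Agent.P284.H66.FDs3
import Mathlib.Data.Set.Finite.List

/-!
# P284 (helper639), spanning curves, part 1: iterated directional derivatives
-/

open scoped Manifold ContDiff Topology Pointwise ComplexConjugate
open Filter Set Metric Function

noncomputable section

namespace Vale.Agent.P284.H639.S

open Vale.Agent.P272.K

variable {n : ℕ}

/-- iterated directional derivatives -/
def DL : List (Cm n) → (Cm n → ℂ) → Cm n → ℂ
  | [], g => g
  | v :: L, g => fun z => fderiv ℂ (DL L g) z v

variable {U : Set (Cm n)} {g h : Cm n → ℂ}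

theorem DL_cons (v : Cm n) (L : List (Cm n)) (g : Cm n → ℂ) (z : Cm n) :
    DL (v :: L) g z = fderiv ℂ (DL L g) z v := rfl

theorem DL_analytic (hg : AnalyticOnNhd ℂ g U) : ∀ L, AnalyticOnNhd ℂ (DL L g) U
  | [] => hg
  | v :: L => fun z hz =>
    AnalyticAt.comp (g := fun T : Cm n →L[ℂ] ℂ => T v) (f := fderiv ℂ (DL L g)) (x := z)
      ((ContinuousLinearMap.apply ℂ ℂ v).analyticAt _) (DL_analytic hg L z hz).fderiv

theorem DL_congr (hU : IsOpen U) (e : ∀ z ∈ U, g z = h z) :
    ∀ L, ∀ z ∈ U, DL L g z = DL L h z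
  | [] => e
  | v :: L => fun z hz => by
    have h1 : DL L g =ᶠ[𝓝 z] DL L h := by
      filter_upwards [hU.mem_nhds hz] with y hy using DL_congr hU e L y hy
    rw [DL_cons, DL_cons, h1.fderiv_eq]

theorem DL_sum {ι : Type*} (s : Finset ι) (c : ι → ℂ) (G : ι → Cm n → ℂ) (hU : IsOpen U)
    (hG : ∀ i ∈ s, AnalyticOnNhd ℂ (G i) U) :
    ∀ L, ∀ z ∈ U, DL L (fun z => ∑ i ∈ s, c i * G i z) z = ∑ i ∈ s, c i * DL L (G i) z
  | [] => fun z _ => rfl
  | v :: L => fun z hz => by
    have h1 : DL L (fun z => ∑ i ∈ s, c i * G i z) =ᶠ[𝓝 z]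
        fun z => ∑ i ∈ s, c i * DL L (G i) z := by
      filter_upwards [hU.mem_nhds hz] with y hy using DL_sum s c G hU hG L y hy
    have h2 : HasFDerivAt (fun z => ∑ i ∈ s, c i * DL L (G i) z)
        (∑ i ∈ s, c i • fderiv ℂ (DL L (G i)) z) z :=
      HasFDerivAt.fun_sum fun i hi =>
        ((DL_analytic (hG i hi) L z hz).differentiableAt.hasFDerivAt).const_mul (c i)
    rw [DL_cons, h1.fderiv_eq, h2.fderiv]
    simp [DL_cons]

theorem DL_append (A L : List (Cm n)) (g : Cm n → ℂ) : DL (A ++ L) g = DL A (DL L g) := by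
  induction A with
  | nil => rfl
  | cons v A ih => funext z; rw [List.cons_append, DL_cons, ih, DL_cons]

theorem DL_swap (hg : AnalyticOnNhd ℂ g U) (a b : Cm n) (L : List (Cm n)) {z : Cm n}
    (hz : z ∈ U) : DL (a :: b :: L) g z = DL (b :: a :: L) g z := by
  have h0 := DL_analytic hg L z hz
  have h1 : ContDiffAt ℂ ω (DL L g) z := h0.contDiffAt
  have h2 : DifferentiableAt ℂ (fderiv ℂ (DL L g)) z := h0.fderiv.differentiableAt
  have h3 : ∀ c : Cm n, fderiv ℂ (fun y => fderiv ℂ (DL L g) y c) z =
      (ContinuousLinearMap.apply ℂ ℂ c).comp (fderiv ℂ (fderiv ℂ (DL L g)) z) := fun c =>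
    ((ContinuousLinearMap.apply ℂ ℂ c).hasFDerivAt.comp z h2.hasFDerivAt).fderiv
  have h4 : IsSymmSndFDerivAt ℂ (DL L g) z := h1.isSymmSndFDerivAt (by simp)
  show fderiv ℂ (fun y => fderiv ℂ (DL L g) y b) z a = fderiv ℂ (fun y => fderiv ℂ (DL L g) y a) z b
  rw [h3, h3]
  exact h4 a b

theorem DL_perm (hU : IsOpen U) (hg : AnalyticOnNhd ℂ g U) {L L' : List (Cm n)}
    (h : L.Perm L') : ∀ z ∈ U, DL L g z = DL L' g z := by
  induction h with
  | nil => exact fun _ _ => rfl
  | @cons v L₁ L₂ _ ih =>
    intro z hz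
    have h1 : DL L₁ g =ᶠ[𝓝 z] DL L₂ g := by
      filter_upwards [hU.mem_nhds hz] with y hy using ih y hy
    rw [DL_cons, DL_cons, h1.fderiv_eq]
  | swap a b L => exact fun z hz => (DL_swap hg b a L hz)
  | trans _ _ ih1 ih2 => exact fun z hz => (ih1 z hz).trans (ih2 z hz)

/-- symmetric functions on lists, linear in every letter -/
structure ML (T : List (Cm n) → ℂ) : Prop where
  perm : ∀ {L L' : List (Cm n)}, L.Perm L' → T L = T L'
  add : ∀ a b L, T ((a + b) :: L) = T (a :: L) + T (b :: L)
  smul : ∀ (c : ℂ) a L, T ((c • a) :: L) = c * T (a :: L)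

theorem ml_DL (hU : IsOpen U) (hg : AnalyticOnNhd ℂ g U) {z : Cm n} (hz : z ∈ U) :
    ML fun L => DL L g z where
  perm h := DL_perm hU hg h z hz
  add a b L := by rw [DL_cons, DL_cons, DL_cons, map_add]
  smul c a L := by rw [DL_cons, DL_cons, map_smul, smul_eq_mul]

theorem ML.cons {T : List (Cm n) → ℂ} (hT : ML T) (v : Cm n) : ML fun L => T (v :: L) where
  perm h := hT.perm (h.cons v)
  add a b L := by
    rw [hT.perm (List.Perm.swap _ _ L), hT.add, hT.perm (List.Perm.swap _ _ L),
      hT.perm (List.Perm.swap b v L)]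
  smul c a L := by
    rw [hT.perm (List.Perm.swap _ _ L), hT.smul, hT.perm (List.Perm.swap _ _ L)]

theorem ML.sub {T S : List (Cm n) → ℂ} (hT : ML T) (hS : ML S) : ML fun L => T L - S L where
  perm h := by rw [hT.perm h, hS.perm h]
  add a b L := by rw [hT.add, hS.add]; ring
  smul c a L := by rw [hT.smul, hS.smul]; ring

/-- words in a spanning set suffice -/
theorem ML.span {T : List (Cm n) → ℂ} (hT : ML T) {D : Set (Cm n)}
    (hD : Submodule.span ℂ D = ⊤) {q : ℕ}
    (h : ∀ L : List (Cm n), L.length = q → (∀ v ∈ L, v ∈ D) → T L = 0) :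
    ∀ L : List (Cm n), L.length = q → T L = 0 := by
  have key : ∀ L₁ L₂ : List (Cm n), (∀ v ∈ L₂, v ∈ D) → (L₁ ++ L₂).length = q →
      T (L₁ ++ L₂) = 0 := by
    intro L₁
    induction L₁ with
    | nil => exact fun L₂ h2 hl => h _ hl h2
    | cons v L₁ ih =>
      intro L₂ h2 hl
      have hv : v ∈ Submodule.span ℂ D := by rw [hD]; trivial
      rw [List.cons_append]
      have hl' : (L₁ ++ L₂).length + 1 = q := by simpa using hl
      clear hl
      induction hv using Submodule.span_induction with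
      | mem v hv =>
        rw [← hT.perm (List.perm_middle (a := v) (l₁ := L₁) (l₂ := L₂))]
        refine ih (v :: L₂) ?_ ?_
        · intro v' hv'
          rcases List.mem_cons.1 hv' with rfl | h3
          · exact hv
          · exact h2 _ h3
        · rw [List.length_append, List.length_cons]
          rw [List.length_append] at hl'
          omega
      | zero =>
        have := hT.smul 0 0 (L₁ ++ L₂)
        rw [zero_smul, zero_mul] at this
        exact this
      | add a b _ _ iha ihb => rw [hT.add, iha, ihb, add_zero]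
      | smul c a _ iha => rw [hT.smul, iha, mul_zero]
  intro L hL
  have := key L [] (by simp) (by simpa using hL)
  simpa using this

/-! ### Lines -/

theorem line_iter (hU : IsOpen U) (hg : AnalyticOnNhd ℂ g U) (z v : Cm n) (k : ℕ) :
    ∀ t : ℂ, z + t • v ∈ U →
      iteratedDeriv k (fun t : ℂ => g (z + t • v)) t = DL (List.replicate k v) g (z + t • v) := by
  induction k with
  | zero => intro t _; simp [DL]
  | succ k ih =>
    intro t ht
    rw [iteratedDeriv_succ, List.replicate_succ, DL_cons]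
    have ho : ∀ᶠ s in 𝓝 t, z + s • v ∈ U := by
      have hc : ContinuousAt (fun s : ℂ => z + s • v) t := by fun_prop
      exact hc.eventually (hU.mem_nhds ht)
    have h1 : iteratedDeriv k (fun t : ℂ => g (z + t • v)) =ᶠ[𝓝 t]
        fun s => DL (List.replicate k v) g (z + s • v) := by
      filter_upwards [ho] with s hs using ih s hs
    rw [h1.deriv_eq]
    have h2 := (DL_analytic hg (List.replicate k v) _ ht).differentiableAt.hasFDerivAt
    have h3 : HasDerivAt (fun s : ℂ => z + s • v) v t := by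
      have := ((hasDerivAt_id t).smul_const v).const_add z
      simpa using this
    exact (HasFDerivAt.comp_hasDerivAt (l := DL (List.replicate k v) g)
      (f := fun s : ℂ => z + s • v) t h2 h3).deriv

/-- all derivatives vanish at a point of a convex open set: zero -/
theorem zero_of_flat (hU : IsOpen U) (hc : Convex ℝ U) (hg : AnalyticOnNhd ℂ g U) {z : Cm n}
    (hz : z ∈ U) (h : ∀ L, DL L g z = 0) : ∀ y ∈ U, g y = 0 := by
  intro y hy
  set φ : ℂ → ℂ := fun t => g (z + t • (y - z)) with hφ
  set V : Set ℂ := (fun t : ℂ => z + t • (y - z)) ⁻¹' U with hV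
  have hVo : IsOpen V := hU.preimage (by fun_prop)
  have hVc : Convex ℝ V := by
    intro s hs t ht a b ha hb hab
    show z + (a • s + b • t) • (y - z) ∈ U
    have h1 := hc hs ht ha hb hab
    have e : z + (a • s + b • t) • (y - z) =
        a • (z + s • (y - z)) + b • (z + t • (y - z)) := by
      have e1 : z = a • z + b • z := by rw [← add_smul, hab, one_smul]
      rw [add_smul, smul_assoc, smul_assoc, smul_add, smul_add]
      nth_rewrite 1 [e1]
      abel
    rw [e]
    exact h1
  have h0V : (0 : ℂ) ∈ V := by simpa [hV] using hz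
  have h1V : (1 : ℂ) ∈ V := by simpa [hV] using hy
  have hφa : AnalyticOnNhd ℂ φ V := by
    intro t ht
    have h2 : AnalyticAt ℂ (fun t : ℂ => z + t • (y - z)) t := by fun_prop
    exact AnalyticAt.comp (g := g) (f := fun t : ℂ => z + t • (y - z)) (x := t) (hg _ ht) h2
  have hev : φ =ᶠ[𝓝 0] 0 := by
    have hall : ∀ k, iteratedDeriv k φ 0 = 0 := by
      intro k
      rw [hφ, line_iter hU hg z (y - z) k 0 h0V, zero_smul, add_zero]
      exact h _
    have h3 : analyticOrderAt φ 0 = ⊤ := by
      rw [ENat.eq_top_iff_forall_ge]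
      intro k
      exact (natCast_le_analyticOrderAt_iff_iteratedDeriv_eq_zero (hφa 0 h0V)).2 fun i _ => hall i
    exact analyticOrderAt_eq_top.1 h3
  have h4 := hφa.eqOn_zero_of_preconnected_of_eventuallyEq_zero hVc.isPreconnected h0V hev h1V
  simpa [hφ] using h4

end Vale.Agent.P284.H639.S
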