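import Vale.Agent.P284.H639.S.Rank
import Mathlib.Analysis.Analytic.Constructions
import Mathlib.Algebra.MvPolynomial.Eval

/-!
# P284 (helper639), spanning curves, part 4: jets of polynomials in functions of low rank
-/

open scoped Manifold ContDiff Topology Pointwise ComplexConjugate
open Filter Set Metric Function

noncomputable section

namespace Vale.Agent.P284.H639.S

open Vale.Agent.P272.K

variable {n r : ℕ}

theorem DL_add' {U : Set (Cm n)} {g h : Cm n → ℂ} (hU : IsOpen U) (hg : AnalyticOnNhd ℂ g U)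
    (hh : AnalyticOnNhd ℂ h U) (L : List (Cm n)) {z : Cm n} (hz : z ∈ U) :
    DL L (fun z => g z + h z) z = DL L g z + DL L h z := by
  have h1 := DL_sum (Finset.univ : Finset (Fin 2)) ![1, 1] ![g, h] hU (by
    intro i _
    fin_cases i
    · exact hg
    · exact hh) L z hz
  simpa [Fin.sum_univ_two] using h1

theorem dv_analytic {U : Set (Cm n)} {g : Cm n → ℂ} (hg : AnalyticOnNhd ℂ g U) (v : Cm n) :
    AnalyticOnNhd ℂ (fun z => fderiv ℂ g z v) U := DL_analytic hg [v]

theorem DL_snoc (L : List (Cm n)) (v : Cm n) (g : Cm n → ℂ) :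
    DL (L ++ [v]) g = DL L (fun z => fderiv ℂ g z v) := DL_append L [v] g

theorem fl_snoc {k : ℕ} {g : Cm n → ℂ} {z : Cm n} (h0 : g z = 0)
    (h : ∀ v, Fl k (fun z => fderiv ℂ g z v) z) : Fl (k + 1) g z := by
  intro L hL
  rcases List.eq_nil_or_concat L with rfl | ⟨L', v, rfl⟩
  · exact h0
  · rw [List.concat_eq_append] at hL ⊢
    rw [DL_snoc]
    refine h v L' ?_
    simpa using hL

theorem Fl.dv {k : ℕ} {g : Cm n → ℂ} {z : Cm n} (h : Fl (k + 1) g z) (v : Cm n) :
    Fl k (fun z => fderiv ℂ g z v) z := by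
  intro L hL
  rw [← DL_snoc]
  exact h _ (by simpa using hL)

theorem fl_congr {U : Set (Cm n)} {g h : Cm n → ℂ} (hU : IsOpen U) {z : Cm n} (hz : z ∈ U)
    (e : ∀ y ∈ U, g y = h y) {k : ℕ} (hf : Fl k h z) : Fl k g z := fun L hL => by
  rw [DL_congr hU e L z hz]
  exact hf L hL

theorem fl_add {U : Set (Cm n)} {g h : Cm n → ℂ} (hU : IsOpen U) (hg : AnalyticOnNhd ℂ g U)
    (hh : AnalyticOnNhd ℂ h U) {z : Cm n} (hz : z ∈ U) {k : ℕ} (h1 : Fl k g z) (h2 : Fl k h z) :
    Fl k (fun z => g z + h z) z := fun L hL => by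
  rw [DL_add' hU hg hh L hz, h1 L hL, h2 L hL, add_zero]

theorem fl_sum {ι : Type*} (s : Finset ι) {U : Set (Cm n)} {G : ι → Cm n → ℂ} (hU : IsOpen U)
    (hG : ∀ i ∈ s, AnalyticOnNhd ℂ (G i) U) {z : Cm n} (hz : z ∈ U) {k : ℕ}
    (h : ∀ i ∈ s, Fl k (G i) z) : Fl k (fun z => ∑ i ∈ s, G i z) z := fun L hL => by
  have h1 := DL_sum s (fun _ => (1 : ℂ)) G hU hG L z hz
  simp only [one_mul] at h1
  rw [h1]
  exact Finset.sum_eq_zero fun i hi => h i hi L hL

/-- Leibniz -/
theorem fl_mul {U : Set (Cm n)} (hU : IsOpen U) {z : Cm n} (hz : z ∈ U) (k : ℕ) :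
    ∀ {a b : Cm n → ℂ}, AnalyticOnNhd ℂ a U → AnalyticOnNhd ℂ b U → Fl k a z →
      Fl k (fun z => a z * b z) z := by
  induction k with
  | zero => intro a b _ _ _ L hL; exact absurd hL (Nat.not_lt_zero _)
  | succ k ih =>
    intro a b ha hb hf
    refine fl_snoc (by rw [show a z = 0 from hf [] (by simp), zero_mul]) fun v => ?_
    refine fl_congr hU hz (h := fun z => fderiv ℂ a z v * b z + a z * fderiv ℂ b z v) ?_ ?_
    · intro y hy
      have h1 := (ha y hy).differentiableAt.hasFDerivAt.mul (hb y hy).differentiableAt.hasFDerivAt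
      have h2 : fderiv ℂ (fun z => a z * b z) y = a y • fderiv ℂ b y + b y • fderiv ℂ a y :=
        h1.fderiv
      rw [h2]
      simp
      ring
    · refine fl_add hU ((dv_analytic ha v).mul hb) (ha.mul (dv_analytic hb v)) hz ?_ ?_
      · exact ih (dv_analytic ha v) hb (hf.dv v)
      · exact ih ha (dv_analytic hb v) (hf.mono (Nat.le_succ k))

/-! ### Frames -/

/-- a frame `S` dual to the submersion `G` -/
structure Frm (U : Set (Cm n)) (G : Cm n → Cm r) (S : Cm n → Cm r →L[ℂ] Cm n) : Prop where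
  isOpen : IsOpen U
  anG : ∀ i, AnalyticOnNhd ℂ (fun z => G z i) U
  anS : AnalyticOnNhd ℂ S U
  dual : ∀ z ∈ U, ∀ (c : Cm r) i, fderiv ℂ (fun z => G z i) z (S z c) = c i

/-- functions of `G` -/
structure Fn (U : Set (Cm n)) (G : Cm n → Cm r) (g : Cm n → ℂ) : Prop where
  an : AnalyticOnNhd ℂ g U
  ker : ∀ z ∈ U, ∀ v, (∀ i, fderiv ℂ (fun z => G z i) z v = 0) → fderiv ℂ g z v = 0

/-- the vector field `X_i` -/
def Xf (S : Cm n → Cm r →L[ℂ] Cm n) (i : Fin r) (g : Cm n → ℂ) (z : Cm n) : ℂ :=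
  fderiv ℂ g z (S z (ex i))

variable {U : Set (Cm n)} {G : Cm n → Cm r} {S : Cm n → Cm r →L[ℂ] Cm n} {g : Cm n → ℂ}

theorem Xf_analytic (hF : Frm U G S) (hg : AnalyticOnNhd ℂ g U) (i : Fin r) :
    AnalyticOnNhd ℂ (Xf S i g) U := by
  intro z hz
  have h1 : AnalyticAt ℂ (fun z => S z (ex i)) z :=
    AnalyticAt.comp (g := fun T : Cm r →L[ℂ] Cm n => T (ex i)) (f := S) (x := z)
      ((ContinuousLinearMap.apply ℂ (Cm n) (ex i)).analyticAt _) (hF.anS z hz)
  exact AnalyticAt.comp₂ (h := fun q : (Cm n →L[ℂ] ℂ) × Cm n => q.1 q.2)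
    ((ContinuousLinearMap.id ℂ (Cm n →L[ℂ] ℂ)).analyticAt_bilinear _) (hg z hz).fderiv h1

theorem dual_ex (hF : Frm U G S) {z : Cm n} (hz : z ∈ U) (i j : Fin r) :
    fderiv ℂ (fun z => G z i) z (S z (ex j)) = if i = j then 1 else 0 := by
  rw [hF.dual z hz]
  simp [ex, Pi.single_apply]

/-- `dg = Σ (X_i g) dG_i` -/
theorem Fn.expand (hF : Frm U G S) (hg : Fn U G g) {z : Cm n} (hz : z ∈ U) (v : Cm n) :
    fderiv ℂ g z v = ∑ i, Xf S i g z * fderiv ℂ (fun z => G z i) z v := by
  obtain ⟨c, hc⟩ : ∃ c : Cm r, c = fun i => fderiv ℂ (fun z => G z i) z v := ⟨_, rfl⟩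
  have h1 : fderiv ℂ g z (v - S z c) = 0 := by
    refine hg.ker z hz _ fun i => ?_
    rw [map_sub, hF.dual z hz, hc, sub_self]
  rw [map_sub, sub_eq_zero] at h1
  have h2 : c = ∑ i, c i • (ex i : Cm r) := by
    funext j
    simp [ex, Pi.single_apply]
  rw [h1, h2, map_sum, map_sum]
  refine Finset.sum_congr rfl fun i _ => ?_
  rw [map_smul, map_smul, smul_eq_mul, mul_comm]
  rw [hc]
  rfl

/-- the antisymmetrised second derivative -/
theorem Fn.anti (hF : Frm U G S) (hg : Fn U G g) {z : Cm n} (hz : z ∈ U) (v v' : Cm n) :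
    ∑ i, fderiv ℂ (Xf S i g) z v * fderiv ℂ (fun z => G z i) z v' =
      ∑ i, fderiv ℂ (Xf S i g) z v' * fderiv ℂ (fun z => G z i) z v := by
  have key : ∀ v v' : Cm n, DL [v, v'] g z = (∑ i, fderiv ℂ (Xf S i g) z v *
      fderiv ℂ (fun z => G z i) z v') + ∑ i, Xf S i g z * DL [v, v'] (fun z => G z i) z := by
    intro v v'
    have h1 : DL [v'] g =ᶠ[𝓝 z] fun z => ∑ i, Xf S i g z * fderiv ℂ (fun z => G z i) z v' := by
      filter_upwards [hF.isOpen.mem_nhds hz] with y hy
      exact hg.expand hF hy v'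
    have h2 : HasFDerivAt (fun z => ∑ i, Xf S i g z * fderiv ℂ (fun z => G z i) z v')
        (∑ i, (Xf S i g z • fderiv ℂ (fun z => fderiv ℂ (fun z => G z i) z v') z +
          (fderiv ℂ (fun z => G z i) z v') • fderiv ℂ (Xf S i g) z)) z :=
      HasFDerivAt.fun_sum fun i _ =>
        ((Xf_analytic hF hg.an i z hz).differentiableAt.hasFDerivAt).mul
          ((dv_analytic (hF.anG i) v' z hz).differentiableAt.hasFDerivAt)
    rw [DL_cons, h1.fderiv_eq, h2.fderiv, ← Finset.sum_add_distrib]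
    rw [sum_apply]
    refine Finset.sum_congr rfl fun i _ => ?_
    simp only [add_apply, smul_apply, smul_eq_mul]
    rw [add_comm, mul_comm (fderiv ℂ (fun z => G z i) z v')]
    rfl
  have h3 := DL_swap hg.an v v' [] hz
  rw [key, key] at h3
  have h4 : ∀ i, DL [v, v'] (fun z => G z i) z = DL [v', v] (fun z => G z i) z := fun i =>
    DL_swap (hF.anG i) v v' [] hz
  simp only [h4] at h3
  exact add_right_cancel h3

theorem Fn.xf (hF : Frm U G S) (hg : Fn U G g) (i : Fin r) : Fn U G (Xf S i g) where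
  an := Xf_analytic hF hg.an i
  ker z hz v hv := by
    have h1 := hg.anti hF hz v (S z (ex i))
    simp only [dual_ex hF hz, hv, mul_zero, Finset.sum_const_zero, mul_ite, mul_one] at h1
    simpa using h1

theorem Fn.comm (hF : Frm U G S) (hg : Fn U G g) (i j : Fin r) {z : Cm n} (hz : z ∈ U) :
    Xf S i (Xf S j g) z = Xf S j (Xf S i g) z := by
  have h1 := hg.anti hF hz (S z (ex i)) (S z (ex j))
  simp only [dual_ex hF hz, mul_ite, mul_one, mul_zero] at h1
  simpa [Xf] using h1

/-- iterated -/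
def XL (S : Cm n → Cm r →L[ℂ] Cm n) : List (Fin r) → (Cm n → ℂ) → Cm n → ℂ
  | [], g => g
  | i :: L, g => Xf S i (XL S L g)

theorem XL_cons (i : Fin r) (L : List (Fin r)) (g : Cm n → ℂ) :
    XL S (i :: L) g = Xf S i (XL S L g) := rfl

theorem XL_append (A L : List (Fin r)) (g : Cm n → ℂ) : XL S (A ++ L) g = XL S A (XL S L g) := by
  induction A with
  | nil => rfl
  | cons v A ih => rw [List.cons_append, XL_cons, ih, XL_cons]

theorem Fn.xl (hF : Frm U G S) (hg : Fn U G g) : ∀ L, Fn U G (XL S L g)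
  | [] => hg
  | i :: L => (Fn.xl hF hg L).xf hF i

theorem Xf_congr (hU : IsOpen U) {g h : Cm n → ℂ} (e : ∀ z ∈ U, g z = h z) (i : Fin r) :
    ∀ z ∈ U, Xf S i g z = Xf S i h z := by
  intro z hz
  have h1 : g =ᶠ[𝓝 z] h := by
    filter_upwards [hU.mem_nhds hz] with y hy using e y hy
  unfold Xf
  rw [h1.fderiv_eq]

theorem Fn.perm (hF : Frm U G S) (hg : Fn U G g) {L L' : List (Fin r)} (h : L.Perm L') :
    ∀ z ∈ U, XL S L g z = XL S L' g z := by
  induction h with
  | nil => exact fun _ _ => rfl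
  | cons i _ ih => exact Xf_congr hF.isOpen ih i
  | swap a b L => exact fun z hz => (hg.xl hF L).comm hF b a hz
  | trans _ _ ih1 ih2 => exact fun z hz => (ih1 z hz).trans (ih2 z hz)

/-- the jets are determined by the iterated `X` -/
theorem fl_of_xl (hF : Frm U G S) {z : Cm n} (hz : z ∈ U) (k : ℕ) :
    ∀ {g : Cm n → ℂ}, Fn U G g → (∀ L : List (Fin r), L.length < k → XL S L g z = 0) →
      Fl k g z := by
  induction k with
  | zero => intro g _ _ L hL; exact absurd hL (Nat.not_lt_zero _)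
  | succ k ih =>
    intro g hg h
    refine fl_snoc (h [] (by simp)) fun v => ?_
    refine fl_congr hF.isOpen hz
      (h := fun z => ∑ i, Xf S i g z * fderiv ℂ (fun z => G z i) z v) ?_ ?_
    · exact fun y hy => hg.expand hF hy v
    · refine fl_sum Finset.univ hF.isOpen (fun i _ => (Xf_analytic hF hg.an i).mul
        (dv_analytic (hF.anG i) v)) hz fun i _ => ?_
      refine fl_mul hF.isOpen hz k (Xf_analytic hF hg.an i) (dv_analytic (hF.anG i) v) ?_
      refine ih (hg.xf hF i) fun L hL => ?_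
      have h1 := h (L ++ [i]) (by simpa using hL)
      rw [XL_append] at h1
      exact h1

theorem XL_sum {ι : Type*} (s : Finset ι) (c : ι → ℂ) (g : ι → Cm n → ℂ) (hF : Frm U G S)
    (hg : ∀ i ∈ s, Fn U G (g i)) :
    ∀ L, ∀ z ∈ U, XL S L (fun z => ∑ i ∈ s, c i * g i z) z = ∑ i ∈ s, c i * XL S L (g i) z
  | [] => fun z _ => rfl
  | j :: L => fun z hz => by
    rw [XL_cons, Xf_congr hF.isOpen (XL_sum s c g hF hg L) j z hz]
    have h2 : HasFDerivAt (fun z => ∑ i ∈ s, c i * XL S L (g i) z)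
        (∑ i ∈ s, c i • fderiv ℂ (XL S L (g i)) z) z :=
      HasFDerivAt.fun_sum fun i hi =>
        ((((hg i hi).xl hF L).an z hz).differentiableAt.hasFDerivAt).const_mul (c i)
    unfold Xf
    rw [h2.fderiv]
    simp [XL_cons, Xf]

theorem Fn.const (c : ℂ) : Fn U G fun _ => c where
  an := analyticOnNhd_const
  ker z _ v _ := by simp

theorem Fn.add {h : Cm n → ℂ} (hg : Fn U G g) (hh : Fn U G h) : Fn U G fun z => g z + h z where
  an := hg.an.add hh.an
  ker z hz v hv := by
    have h1 := (hg.an z hz).differentiableAt.hasFDerivAt.add (hh.an z hz).differentiableAt.hasFDerivAt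
    have h2 : fderiv ℂ (fun z => g z + h z) z = fderiv ℂ g z + fderiv ℂ h z := h1.fderiv
    rw [h2, add_apply, hg.ker z hz v hv, hh.ker z hz v hv, add_zero]

theorem Fn.mul {h : Cm n → ℂ} (hg : Fn U G g) (hh : Fn U G h) : Fn U G fun z => g z * h z where
  an := hg.an.mul hh.an
  ker z hz v hv := by
    have h1 := (hg.an z hz).differentiableAt.hasFDerivAt.mul (hh.an z hz).differentiableAt.hasFDerivAt
    have h2 : fderiv ℂ (fun z => g z * h z) z = g z • fderiv ℂ h z + h z • fderiv ℂ g z := h1.fderiv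
    rw [h2]
    simp [hg.ker z hz v hv, hh.ker z hz v hv]

theorem Fn.eval {N : ℕ} {F : Fin N → Cm n → ℂ} (hF : ∀ k, Fn U G (F k))
    (q : MvPolynomial (Fin N) ℂ) : Fn U G fun z => MvPolynomial.eval (fun k => F k z) q := by
  induction q using MvPolynomial.induction_on with
  | C a => simpa using Fn.const (U := U) (G := G) a
  | add p q hp hq => simpa using hp.add hq
  | mul_X p k hp => simpa using hp.mul (hF k)

/-! ### Counting -/

/-- the sorted word -/
def srt {K : ℕ} (α : Fin r → Fin K) : List (Fin r) :=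
  (List.finRange r).flatMap fun i => List.replicate (α i) i

theorem count_srt {K : ℕ} (α : Fin r → Fin K) (i : Fin r) : (srt α).count i = α i := by
  unfold srt
  rw [List.count_flatMap]
  have h1 : (List.map (List.count i ∘ fun j => List.replicate (α j : ℕ) j) (List.finRange r)) =
      List.map (fun j => if j = i then (α i : ℕ) else 0) (List.finRange r) := by
    refine List.map_congr_left fun j _ => ?_
    simp only [Function.comp_apply, List.count_replicate]
    by_cases h : j = i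
    · subst h; simp
    · simp [h]
  rw [h1]
  have h2 : (List.map (fun j => if j = i then (α i : ℕ) else 0) (List.finRange r)).sum =
      ∑ j : Fin r, if j = i then (α i : ℕ) else 0 := by
    rw [← List.ofFn_eq_map, List.sum_ofFn]
  rw [h2]
  simp

/-- every word is a permutation of a sorted one -/
theorem exists_srt {K : ℕ} (L : List (Fin r)) (hL : L.length < K) :
    ∃ α : Fin r → Fin K, L.Perm (srt α) := by
  refine ⟨fun i => ⟨L.count i, lt_of_le_of_lt List.count_le_length hL⟩, ?_⟩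
  rw [List.perm_iff_count]
  intro i
  rw [count_srt]

/-- the monomials -/
def mon {N D : ℕ} (F : Fin N → Cm n → ℂ) (β : Fin N → Fin (D + 1)) (z : Cm n) : ℂ :=
  ∏ k, F k z ^ (β k : ℕ)

/-- the polynomial with coefficients `c` -/
def pol {N D : ℕ} (c : (Fin N → Fin (D + 1)) → ℂ) : MvPolynomial (Fin N) ℂ :=
  ∑ β, MvPolynomial.monomial (Finsupp.equivFunOnFinite.symm fun k => (β k : ℕ)) (c β)

theorem eval_pol {N D : ℕ} (c : (Fin N → Fin (D + 1)) → ℂ) (F : Fin N → Cm n → ℂ) (z : Cm n) :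
    MvPolynomial.eval (fun k => F k z) (pol c) = ∑ β, c β * mon F β z := by
  unfold pol mon
  rw [map_sum]
  refine Finset.sum_congr rfl fun β _ => ?_
  rw [MvPolynomial.eval_monomial]
  congr 1
  rw [Finsupp.prod_fintype _ _ (fun i => pow_zero _)]
  rfl

theorem pol_ne_zero {N D : ℕ} {c : (Fin N → Fin (D + 1)) → ℂ} (hc : c ≠ 0) : pol c ≠ 0 := by
  classical
  obtain ⟨β, hβ⟩ := Function.ne_iff.1 hc
  intro h
  apply hβ
  have h1 := congrArg (MvPolynomial.coeff (Finsupp.equivFunOnFinite.symm fun k => (β k : ℕ))) h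
  unfold pol at h1
  rw [MvPolynomial.coeff_sum, MvPolynomial.coeff_zero] at h1
  simp only [MvPolynomial.coeff_monomial] at h1
  rw [Finset.sum_eq_single β] at h1
  · simpa using h1
  · intro b _ hb
    rw [if_neg]
    intro h2
    apply hb
    funext k
    have h3 := congrFun (congrArg (fun s : Fin N →₀ ℕ => (s : Fin N → ℕ)) h2) k
    exact Fin.ext h3
  · intro h2
    exact absurd (Finset.mem_univ β) h2

/-- **Counting**: in a ring generated by `N` functions of rank `r` there are flat elements. -/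
theorem exists_flat {N D K : ℕ} (hF : Frm U G S) {F : Fin N → Cm n → ℂ} (hFk : ∀ k, Fn U G (F k))
    {z : Cm n} (hz : z ∈ U) (hK : K ^ r < (D + 1) ^ N) :
    ∃ c : (Fin N → Fin (D + 1)) → ℂ, c ≠ 0 ∧ Fl K (fun z => ∑ β, c β * mon F β z) z := by
  classical
  have hmon : ∀ β : Fin N → Fin (D + 1), Fn U G (mon F β) := by
    intro β
    have h1 := Fn.eval hFk (MvPolynomial.monomial
      (Finsupp.equivFunOnFinite.symm fun k => (β k : ℕ)) (1 : ℂ))
    have h2 : (fun z => MvPolynomial.eval (fun k => F k z) (MvPolynomial.monomial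
        (Finsupp.equivFunOnFinite.symm fun k => (β k : ℕ)) (1 : ℂ))) = mon F β := by
      funext z
      rw [MvPolynomial.eval_monomial, one_mul, Finsupp.prod_fintype _ _ (fun i => pow_zero _)]
      rfl
    rwa [h2] at h1
  let T : ((Fin N → Fin (D + 1)) → ℂ) →ₗ[ℂ] ((Fin r → Fin K) → ℂ) :=
    { toFun := fun c α => ∑ β, c β * XL S (srt α) (mon F β) z
      map_add' := by
        intro a b
        funext α
        simp only [Pi.add_apply, add_mul, Finset.sum_add_distrib]
      map_smul' := by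
        intro a b
        funext α
        simp only [Pi.smul_apply, smul_eq_mul, RingHom.id_apply, Finset.mul_sum, mul_assoc] }
  have hker : T.ker ≠ ⊥ := by
    refine LinearMap.ker_ne_bot_of_finrank_lt ?_
    simpa using hK
  obtain ⟨c, hc, hc0⟩ := Submodule.exists_mem_ne_zero_of_ne_bot hker
  refine ⟨c, hc0, ?_⟩
  have hq : Fn U G fun z => ∑ β, c β * mon F β z := by
    have h1 := Fn.eval hFk (pol c)
    have h2 : (fun z => MvPolynomial.eval (fun k => F k z) (pol c)) =
        fun z => ∑ β, c β * mon F β z := funext fun z => eval_pol c F z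
    rwa [h2] at h1
  refine fl_of_xl hF hz K hq fun L hL => ?_
  obtain ⟨α, hα⟩ := exists_srt L hL
  rw [hq.perm hF hα z hz, XL_sum Finset.univ c _ hF (fun β _ => hmon β) _ z hz]
  exact congrFun (LinearMap.mem_ker.1 hc) α

end Vale.Agent.P284.H639.S
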