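import Vale.Agent.P284.H639.S.Fr

/-!
# P284 (helper639), spanning curves, part 5: frames at points of maximal rank
-/

open scoped Manifold ContDiff Topology Pointwise ComplexConjugate
open Filter Set Metric Function

noncomputable section

namespace Vale.Agent.P284.H639.S

open Vale.Agent.P272.K

variable {n N : ℕ}

theorem comp_deriv {F : Cm n → Cm N} {z : Cm n} (h : DifferentiableAt ℂ F z) (k : Fin N)
    (v : Cm n) : fderiv ℂ (fun z => F z k) z v = fderiv ℂ F z v k := by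
  have h1 : HasFDerivAt (fun z => F z k)
      ((ContinuousLinearMap.proj (R := ℂ) (φ := fun _ : Fin N => ℂ) k).comp (fderiv ℂ F z)) z :=
    (ContinuousLinearMap.proj (R := ℂ) (φ := fun _ : Fin N => ℂ) k).hasFDerivAt.comp z h.hasFDerivAt
  rw [h1.fderiv]
  rfl

/-- a frame exists near some point -/
theorem exists_frame {U : Set (Cm n)} (hU : IsOpen U) (hne : U.Nonempty) {F : Cm n → Cm N}
    (hF : AnalyticOnNhd ℂ F U) (hns : ∀ z ∈ U, ¬ Surjective (fderiv ℂ F z)) :
    ∃ (z₁ : Cm n) (ε : ℝ) (r : ℕ) (G : Cm n → Cm r) (S : Cm n → Cm r →L[ℂ] Cm n), 0 < ε ∧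
      ball z₁ ε ⊆ U ∧ r < N ∧ Frm (ball z₁ ε) G S ∧ ∀ k, Fn (ball z₁ ε) G fun z => F z k := by
  classical
  set rk : Cm n → ℕ := fun z => Module.finrank ℂ (fderiv ℂ F z).toLinearMap.range with hrk
  have hrkN : ∀ z, rk z ≤ N := fun z => by
    have := Submodule.finrank_le (fderiv ℂ F z).toLinearMap.range
    rwa [Module.finrank_fin_fun] at this
  obtain ⟨z₁, hz₁, hmax⟩ : ∃ z₁ ∈ U, ∀ z ∈ U, rk z ≤ rk z₁ := by
    by_contra hcon
    push Not at hcon
    have h1 : ∀ k : ℕ, ∃ z ∈ U, k ≤ rk z := by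
      intro k
      induction k with
      | zero =>
        obtain ⟨z, hz⟩ := hne
        exact ⟨z, hz, Nat.zero_le _⟩
      | succ k ih =>
        obtain ⟨z, hz, h⟩ := ih
        obtain ⟨z', hz', h'⟩ := hcon z hz
        exact ⟨z', hz', by omega⟩
    obtain ⟨z, -, h⟩ := h1 (N + 1)
    have := hrkN z
    omega
  obtain ⟨r, hr⟩ : ∃ r, r = rk z₁ := ⟨_, rfl⟩
  have hrN : r < N := by
    refine lt_of_le_of_ne (hr ▸ hrkN z₁) fun h => ?_
    refine hns z₁ hz₁ ?_
    have h1 : (fderiv ℂ F z₁).toLinearMap.range = ⊤ := by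
      refine Submodule.eq_top_of_finrank_eq ?_
      rw [Module.finrank_fin_fun]
      exact (hr ▸ h : rk z₁ = N)
    exact LinearMap.range_eq_top.1 h1
  -- the projection
  obtain ⟨P, hP⟩ := LinearMap.exists_leftInverse_of_injective
    (fderiv ℂ F z₁).toLinearMap.range.subtype (Submodule.ker_subtype _)
  let e : (fderiv ℂ F z₁).toLinearMap.range ≃ₗ[ℂ] Cm r := LinearEquiv.ofFinrankEq _ _ (by
    rw [Module.finrank_fin_fun, hr])
  let π : Cm N →L[ℂ] Cm r := LinearMap.toContinuousLinearMap (e.toLinearMap ∘ₗ P)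
  have hπ : ∀ v, π (fderiv ℂ F z₁ v) = e ⟨fderiv ℂ F z₁ v, v, rfl⟩ := by
    intro v
    show e (P (fderiv ℂ F z₁ v)) = _
    congr 1
    exact LinearMap.congr_fun hP ⟨fderiv ℂ F z₁ v, v, rfl⟩
  have hsurj : Surjective (π.comp (fderiv ℂ F z₁)).toLinearMap := by
    intro c
    obtain ⟨v, hv⟩ := (e.symm c).2
    refine ⟨v, ?_⟩
    show π (fderiv ℂ F z₁ v) = c
    rw [hπ]
    have : (⟨fderiv ℂ F z₁ v, v, rfl⟩ : (fderiv ℂ F z₁).toLinearMap.range) = e.symm c :=
      Subtype.ext hv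
    rw [this, e.apply_symm_apply]
  obtain ⟨V', hV'⟩ := LinearMap.exists_rightInverse_of_surjective _ (LinearMap.range_eq_top.2 hsurj)
  let V : Cm r →L[ℂ] Cm n := LinearMap.toContinuousLinearMap V'
  let A : Cm n → (Cm r →L[ℂ] Cm r) := fun z => (π.comp (fderiv ℂ F z)).comp V
  have hA1 : A z₁ = 1 := by
    ext1 c
    exact LinearMap.congr_fun hV' c
  have hAan : AnalyticOnNhd ℂ A U := by
    intro z hz
    have h1 : AnalyticAt ℂ (fderiv ℂ F) z := (hF z hz).fderiv
    let Φ : (Cm n →L[ℂ] Cm N) →L[ℂ] (Cm r →L[ℂ] Cm r) :=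
      ((ContinuousLinearMap.compL ℂ (Cm r) (Cm n) (Cm r)).flip V).comp
        (ContinuousLinearMap.compL ℂ (Cm n) (Cm N) (Cm r) π)
    exact AnalyticAt.comp (g := fun T => Φ T) (f := fderiv ℂ F) (x := z) (Φ.analyticAt _) h1
  have hunit : ∀ᶠ z in 𝓝 z₁, IsUnit (A z) := by
    refine (hAan z₁ hz₁).continuousAt.eventually ?_
    refine Units.isOpen.mem_nhds ?_
    show IsUnit (A z₁)
    rw [hA1]
    exact isUnit_one
  obtain ⟨ε, hε, hball⟩ := Metric.eventually_nhds_iff_ball.1 (hunit.and (hU.mem_nhds hz₁))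
  have hsub : ball z₁ ε ⊆ U := fun z hz => (hball z hz).2
  have hdiff : ∀ z ∈ U, DifferentiableAt ℂ F z := fun z hz => (hF z hz).differentiableAt
  have hGd : ∀ z ∈ U, HasFDerivAt (fun z => π (F z)) (π.comp (fderiv ℂ F z)) z := fun z hz =>
    π.hasFDerivAt.comp z (hdiff z hz).hasFDerivAt
  have hGk : ∀ z ∈ U, ∀ i v, fderiv ℂ (fun z => π (F z) i) z v = π (fderiv ℂ F z v) i := by
    intro z hz i v
    rw [comp_deriv (F := fun z => π (F z)) (hGd z hz).differentiableAt, (hGd z hz).fderiv]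
    rfl
  refine ⟨z₁, ε, r, fun z => π (F z), fun z => V.comp (Ring.inverse (A z)), hε, hsub, hrN,
    ⟨isOpen_ball, ?_, ?_, ?_⟩, fun k => ⟨?_, ?_⟩⟩
  · intro i z hz
    let ℓ : Cm N →L[ℂ] ℂ := (ContinuousLinearMap.proj (R := ℂ) (φ := fun _ : Fin r => ℂ) i).comp π
    exact AnalyticAt.comp (g := fun x => ℓ x) (f := F) (x := z) (ℓ.analyticAt _) (hF z (hsub hz))
  · intro z hz
    obtain ⟨u, hu⟩ := (hball z hz).1
    have h1 : AnalyticAt ℂ Ring.inverse (A z) := by
      rw [← hu]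
      exact analyticAt_inverse u
    have h2 : AnalyticAt ℂ (fun z => Ring.inverse (A z)) z :=
      AnalyticAt.comp (g := Ring.inverse) (f := A) (x := z) h1 (hAan z (hsub hz))
    exact AnalyticAt.comp (g := fun T => ContinuousLinearMap.compL ℂ (Cm r) (Cm r) (Cm n) V T)
      (f := fun z => Ring.inverse (A z)) (x := z) ((ContinuousLinearMap.compL ℂ (Cm r) (Cm r)
        (Cm n) V).analyticAt _) h2
  · intro z hz c i
    rw [hGk z (hsub hz)]
    have h1 : A z * Ring.inverse (A z) = 1 := Ring.mul_inverse_cancel _ (hball z hz).1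
    exact congrFun (DFunLike.congr_fun h1 c) i
  · intro z hz
    exact AnalyticAt.comp (g := fun x => (ContinuousLinearMap.proj (R := ℂ)
      (φ := fun _ : Fin N => ℂ) k) x) (f := F) (x := z) (ContinuousLinearMap.analyticAt _ _)
      (hF z (hsub hz))
  · intro z hz v hv
    rw [comp_deriv (hdiff z (hsub hz))]
    -- kernels
    have h1 : (fderiv ℂ F z).toLinearMap.ker ≤ (π.comp (fderiv ℂ F z)).toLinearMap.ker := by
      intro x hx
      have hx' : fderiv ℂ F z x = 0 := hx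
      show π (fderiv ℂ F z x) = 0
      rw [hx', map_zero]
    have h2 : Surjective (π.comp (fderiv ℂ F z)).toLinearMap := by
      intro c
      refine ⟨V (Ring.inverse (A z) c), ?_⟩
      have h1 : A z * Ring.inverse (A z) = 1 := Ring.mul_inverse_cancel _ (hball z hz).1
      exact DFunLike.congr_fun h1 c
    have h3 := LinearMap.finrank_range_add_finrank_ker (fderiv ℂ F z).toLinearMap
    have h4 := LinearMap.finrank_range_add_finrank_ker (π.comp (fderiv ℂ F z)).toLinearMap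
    rw [LinearMap.range_eq_top.2 h2, finrank_top, Module.finrank_fin_fun] at h4
    have h5 : rk z ≤ r := hr ▸ hmax z (hsub hz)
    have h6 : Module.finrank ℂ (fderiv ℂ F z).toLinearMap.range = rk z := rfl
    rw [Module.finrank_fin_fun] at h3 h4
    have h7 : (fderiv ℂ F z).toLinearMap.ker = (π.comp (fderiv ℂ F z)).toLinearMap.ker :=
      Submodule.eq_of_le_of_finrank_le h1 (by omega)
    have h8 : v ∈ (π.comp (fderiv ℂ F z)).toLinearMap.ker := by
      show π (fderiv ℂ F z v) = 0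
      funext i
      rw [← hGk z (hsub hz)]
      exact hv i
    rw [← h7] at h8
    have h9 : fderiv ℂ F z v = 0 := h8
    rw [h9]
    rfl

end Vale.Agent.P284.H639.S
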