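import Vale.Agent.P284.H639.S.Span
import Vale.Agent.P284.H639.S.Fra
import Vale.Agent.P284.H894.W.Spec

/-!
# P284 (helper639), spanning curves, part 6: growth along the curves
-/

open scoped Manifold ContDiff Topology Pointwise ComplexConjugate ComplexOrder
open Filter Set Metric MeasureTheory Asymptotics

noncomputable section

namespace Vale.Agent.P284.H639.S

open Vale.Agent.P272.K Vale.Agent.P284.H894.V Vale.Agent.P284.H894.F Vale.Agent.P284.H5.V
  Vale.Agent.P284.H894 Vale.Agent.P284.H66.FDs Vale.Agent.P284.H894.W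

variable {n N : ℕ}

/-- entire of growth `k` -/
def Pgr (k : ℕ) (A : ℂ → ℂ) : Prop :=
  Differentiable ℂ A ∧ ∃ C : ℝ, 0 ≤ C ∧ ∀ t, ‖A t‖ ≤ C * (1 + ‖t‖) ^ k

theorem Pgr.mono {k l : ℕ} {A : ℂ → ℂ} (h : Pgr k A) (hkl : k ≤ l) : Pgr l A := by
  obtain ⟨hd, C, hC, hA⟩ := h
  refine ⟨hd, C, hC, fun t => (hA t).trans (mul_le_mul_of_nonneg_left ?_ hC)⟩
  exact pow_le_pow_right₀ (by linarith [norm_nonneg t]) hkl

theorem Pgr.const (c : ℂ) : Pgr 0 fun _ => c :=
  ⟨differentiable_const c, ‖c‖, norm_nonneg c, fun t => by simp⟩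

theorem Pgr.add {k : ℕ} {A B : ℂ → ℂ} (hA : Pgr k A) (hB : Pgr k B) :
    Pgr k fun t => A t + B t := by
  obtain ⟨hd, C, hC, hA⟩ := hA
  obtain ⟨hd', C', hC', hB⟩ := hB
  refine ⟨hd.add hd', C + C', add_nonneg hC hC', fun t => ?_⟩
  rw [add_mul]
  exact (norm_add_le _ _).trans (add_le_add (hA t) (hB t))

theorem Pgr.mul {k l : ℕ} {A B : ℂ → ℂ} (hA : Pgr k A) (hB : Pgr l B) :
    Pgr (k + l) fun t => A t * B t := by
  obtain ⟨hd, C, hC, hA⟩ := hA
  obtain ⟨hd', C', hC', hB⟩ := hB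
  refine ⟨hd.mul hd', C * C', mul_nonneg hC hC', fun t => ?_⟩
  rw [norm_mul]
  refine (mul_le_mul (hA t) (hB t) (norm_nonneg _) (by positivity)).trans (le_of_eq ?_)
  rw [pow_add]
  ring

theorem Pgr.pow {k : ℕ} {A : ℂ → ℂ} (hA : Pgr k A) (j : ℕ) : Pgr (j * k) fun t => A t ^ j := by
  induction j with
  | zero => simpa using Pgr.const 1
  | succ j ih =>
    have h1 := ih.mul hA
    rw [Nat.succ_mul]
    simpa [pow_succ] using h1

theorem Pgr.prod {ι : Type*} (s : Finset ι) {k : ℕ} {A : ι → ℂ → ℂ} (h : ∀ i ∈ s, Pgr k (A i)) :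
    Pgr (s.card * k) fun t => ∏ i ∈ s, A i t := by
  classical
  induction s using Finset.induction_on with
  | empty => simpa using Pgr.const 1
  | insert i s hi ih =>
    have h1 := (h i (Finset.mem_insert_self i s)).mul
      (ih fun j hj => h j (Finset.mem_insert_of_mem hj))
    rw [Finset.card_insert_of_notMem hi]
    simp only [Finset.prod_insert hi]
    have e : (s.card + 1) * k = k + s.card * k := by ring
    rw [e]
    exact h1

theorem Pgr.deriv {k : ℕ} {A : ℂ → ℂ} (h : Pgr k A) :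
    ∃ C : ℝ, ∀ t, ‖deriv A t‖ ≤ C * (1 + ‖t‖) ^ k := by
  obtain ⟨hd, C, hC, hA⟩ := h
  refine ⟨C * 2 ^ k, fun t => ?_⟩
  have h1 := Complex.norm_deriv_le_of_forall_mem_sphere_norm_le (c := t) (R := 1)
    (C := C * (2 * (1 + ‖t‖)) ^ k) (f := A) one_pos hd.diffContOnCl (by
      intro z hz
      have hz' : ‖z - t‖ = 1 := by simpa [dist_eq_norm] using hz
      refine (hA z).trans (mul_le_mul_of_nonneg_left ?_ hC)
      refine pow_le_pow_left₀ (by positivity) ?_ k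
      have h2 : ‖z‖ ≤ ‖z - t‖ + ‖t‖ := by
        have := norm_add_le (z - t) t
        simpa using this
      linarith [norm_nonneg t])
  rw [div_one] at h1
  refine h1.trans (le_of_eq ?_)
  rw [mul_pow]
  ring

theorem pgr_of_deriv {A : ℂ → ℂ} (hd : Differentiable ℂ A) {C : ℝ} {m : ℕ}
    (h : ∀ t, ‖deriv A t‖ ≤ C * (1 + ‖t‖) ^ m) : Pgr (m + 1) A := by
  have hC : 0 ≤ C := by
    have := (norm_nonneg _).trans (h 0)
    simpa using this
  refine ⟨hd, ‖A 0‖ + C, add_nonneg (norm_nonneg _) hC, fun t => ?_⟩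
  have h1 := Convex.norm_image_sub_le_of_norm_deriv_le (f := A) (C := C * (1 + ‖t‖) ^ m)
    (s := closedBall (0 : ℂ) ‖t‖) (x := 0) (y := t) (fun x _ => hd x) (fun x hx => by
      refine (h x).trans (mul_le_mul_of_nonneg_left ?_ hC)
      have hx' : ‖x‖ ≤ ‖t‖ := by simpa using hx
      exact pow_le_pow_left₀ (by positivity) (by linarith) m) (convex_closedBall _ _)
    (mem_closedBall_self (norm_nonneg t)) (by simp)
  rw [sub_zero] at h1
  have h2 : ‖A t‖ ≤ ‖A t - A 0‖ + ‖A 0‖ := by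
    have := norm_add_le (A t - A 0) (A 0)
    simpa using this
  have h3 : (1 : ℝ) ≤ (1 + ‖t‖) ^ (m + 1) := one_le_pow₀ (by linarith [norm_nonneg t])
  have h4 : C * (1 + ‖t‖) ^ m * ‖t‖ ≤ C * (1 + ‖t‖) ^ (m + 1) := by
    rw [pow_succ, ← mul_assoc]
    exact mul_le_mul_of_nonneg_left (by linarith) (by positivity)
  nlinarith [norm_nonneg (A 0)]

/-- along `τ` the function `g` is the germ of an entire function of growth `k` -/
def Gv (k : ℕ) (τ : ℂ → Cm n) (g : Cm n → ℂ) : Prop :=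
  ∃ A : ℂ → ℂ, Pgr k A ∧ ∀ᶠ t in 𝓝 (0 : ℂ), g (τ t) = A t

theorem Gv.cv {k : ℕ} {τ : ℂ → Cm n} {g : Cm n → ℂ} (h : Gv k τ g) {z : Cm n} (hz : τ 0 = z) :
    Cv k τ z g := by
  obtain ⟨A, hA, he⟩ := h
  obtain ⟨C, hC⟩ := hA.deriv
  refine ⟨A, C, hA.1, hC, ?_⟩
  have h0 : g z = A 0 := by rw [← hz]; exact he.self_of_nhds
  filter_upwards [he] with t ht
  rw [ht, h0]

theorem gv_zero {k : ℕ} {τ : ℂ → Cm n} : Gv k τ 0 :=
  ⟨fun _ => 0, (Pgr.const 0).mono (Nat.zero_le k), Eventually.of_forall fun _ => rfl⟩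

theorem Gv.add {k : ℕ} {τ : ℂ → Cm n} {g h : Cm n → ℂ} (hg : Gv k τ g) (hh : Gv k τ h) :
    Gv k τ (g + h) := by
  obtain ⟨A, hA, hAe⟩ := hg
  obtain ⟨B, hB, hBe⟩ := hh
  refine ⟨_, hA.add hB, ?_⟩
  filter_upwards [hAe, hBe] with t h1 h2
  rw [Pi.add_apply, h1, h2]

theorem Gv.smul {k : ℕ} {τ : ℂ → Cm n} {g : Cm n → ℂ} (c : ℂ) (hg : Gv k τ g) :
    Gv k τ (c • g) := by
  obtain ⟨A, hA, hAe⟩ := hg
  refine ⟨fun t => c * A t, ?_, ?_⟩
  · have := (Pgr.const c).mul hA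
    rwa [zero_add] at this
  · filter_upwards [hAe] with t h1
    rw [Pi.smul_apply, h1, smul_eq_mul]

/-- monomials -/
theorem gv_mon {k D : ℕ} {τ : ℂ → Cm n} {F : Fin N → Cm n → ℂ} (h : ∀ j, Gv k τ (F j))
    (β : Fin N → Fin (D + 1)) : Gv (N * (D * k)) τ (mon F β) := by
  choose A hA hAe using h
  refine ⟨fun t => ∏ j, A j t ^ (β j : ℕ), ?_, ?_⟩
  · have h1 := Pgr.prod (Finset.univ : Finset (Fin N)) (k := D * k)
      (A := fun j t => A j t ^ (β j : ℕ)) (fun j _ => ((hA j).pow (β j)).mono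
        (Nat.mul_le_mul_right k (Nat.lt_succ_iff.1 (β j).2)))
    simpa using h1
  · filter_upwards [eventually_all.2 hAe] with t ht
    unfold mon
    exact Finset.prod_congr rfl fun j _ => by rw [ht j]

section
variable {X : Type} [TopologicalSpace X] [ChartedSpace (Cm n) X] [IsManifold 𝓘(ℂ, Cm n) ω X]
  {E : Type} [TopologicalSpace E]
  {p : E → X} {w : Chart n X → Cm n → Matrix (Fin n) (Fin n) ℂ} {B : ℝ}
  {f : ℂ → X} {F : E → Cm N}

/-- holomorphic maps with bounded derivative along the lift of an entire curve -/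
theorem hol_entire (hw : IsHermitian w) (hF : HolB p w F B) {Φ : ℂ → E} (hΦ : Continuous Φ)
    (hpΦ : ∀ t, p (Φ t) = f t) (hf : ContMDiff 𝓘(ℂ) 𝓘(ℂ, Cm n) ω f) (k : Fin N) (t : ℂ) :
    DifferentiableAt ℂ (fun t => F (Φ t) k) t ∧
      ‖deriv (fun t => F (Φ t) k) t‖ ^ 2 ≤ B * speedSq w f t := by
  obtain ⟨e, he⟩ : ∃ e, e = chartAt (Cm n) (f t) := ⟨_, rfl⟩
  have hAt : At e (f t) := by rw [he]; exact at_chartAt _
  obtain ⟨g, hg1, hg2, hg3⟩ := hF (Φ t) e (by rw [hpΦ]; exact hAt)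
  rw [hpΦ] at hg2 hg3
  have h1 : (fun s => F (Φ s)) =ᶠ[𝓝 t] fun s => g (e (f s)) := by
    filter_upwards [hΦ.continuousAt.eventually hg1] with s hs
    rw [hs, hpΦ]
  have h2 : HasDerivAt (fun s => g (e (f s)))
      (fderiv ℂ g (e (f t)) (deriv (fun s => e (f s)) t)) t :=
    HasFDerivAt.comp_hasDerivAt (l := g) (f := fun s => e (f s)) t
      hg2.self_of_nhds.hasFDerivAt ((tau_sm hf hAt).differentiableAt (by simp)).hasDerivAt
  have h3 : HasDerivAt (fun s => F (Φ s)) (fderiv ℂ g (e (f t)) (deriv (fun s => e (f s)) t)) t :=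
    h2.congr_of_eventuallyEq h1
  have h4 := hasDerivAt_pi.1 h3 k
  refine ⟨h4.differentiableAt, ?_⟩
  rw [h4.deriv, speed_eq hw hf hAt]
  have h5 := norm_le_pi_norm (fderiv ℂ g (e (f t)) (deriv (fun s => e (f s)) t)) k
  have h6 := hg3 (deriv (fun s => e (f s)) t)
  refine (pow_le_pow_left₀ (norm_nonneg _) h5 2).trans ?_
  exact h6

theorem gv_coord (hw : IsHermitian w) (hp : IsCoveringMap p) (hF : HolB p w F B) {y₀ : E}
    {e : Chart n X} (he : At e (p y₀)) {r : ℝ} {σ : Cm n → E} (hσ : LSec p e y₀ r σ) {z : Cm n}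
    (hz : z ∈ ball (e (p y₀)) r) {v : Cm n} {ρ : ℝ} (hf : FiniteOrderCurve w (p (σ z)) v ρ f)
    {m : ℕ} (hm : ρ ≤ 2 * m) (k : Fin N) :
    Gv (m + 1) (fun t => e (f t)) fun z => F (σ z) k := by
  obtain ⟨Φ, ⟨hF0, hpF'⟩, -⟩ :=
    hp.existsUnique_continuousMap_lifts ⟨f, hf.holo.continuous⟩ 0 (σ z) hf.base.symm
  have hpF : ∀ t, p (Φ t) = f t := fun t => congrFun hpF' t
  have hA : Differentiable ℂ fun t => F (Φ t) k := fun t =>
    (hol_entire hw hF Φ.continuous hpF hf.holo k t).1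
  have hAt : At e (f 0) := by
    rw [hf.base]
    exact ⟨he.1, hσ.src z hz⟩
  have hτ := tau_sm hf.holo hAt
  have h0 : e (f 0) = z := by rw [hf.base]; exact hσ.inv z hz
  obtain ⟨C, hC⟩ := hf.order
  have hsc := speed_continuous hw hf.holo
  have hsn := speed_nonneg hw hf.holo
  have hdA : Continuous (deriv fun t => F (Φ t) k) := by
    have h2 : ContDiff ℂ 1 fun t => F (Φ t) k := hA.contDiff
    exact h2.continuous_deriv le_rfl
  have hint : ∀ {g : ℂ → ℝ}, Continuous g → ∀ r : ℝ, IntegrableOn g (ball (0 : ℂ) r) :=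
    fun hg r => (hg.continuousOn.integrableOn_compact
      (isCompact_closedBall 0 r)).mono_set ball_subset_closedBall
  obtain ⟨C', hC'⟩ := growth hA (C := |B| * C) (ρ := ρ) (fun r hr => by
    calc ∫ t in ball (0 : ℂ) r, ‖deriv (fun t => F (Φ t) k) t‖ ^ 2
        ≤ ∫ t in ball (0 : ℂ) r, |B| * speedSq w f t := by
          refine setIntegral_mono_on (hint (hdA.norm.pow 2) r)
            (hint (continuous_const.mul hsc) r) measurableSet_ball fun t _ => ?_
          refine (hol_entire hw hF Φ.continuous hpF hf.holo k t).2.trans ?_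
          exact mul_le_mul_of_nonneg_right (le_abs_self B) (hsn t)
      _ = |B| * ∫ t in ball (0 : ℂ) r, speedSq w f t := integral_const_mul _ _
      _ ≤ |B| * (C * r ^ ρ) := mul_le_mul_of_nonneg_left (hC r hr) (abs_nonneg B)
      _ = _ := by ring) hm
  refine ⟨fun t => F (Φ t) k, pgr_of_deriv hA hC', ?_⟩
  have h3 : Tendsto Φ (𝓝 0) (𝓝 (σ z)) := by
    have := Φ.continuous.tendsto 0
    rwa [hF0] at this
  filter_upwards [h3.eventually (sec_near hp hσ hz)] with t ht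
  rw [← hpF t, ht]

end

end Vale.Agent.P284.H639.S
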