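import Vale.Agent.P284.H639.S.DL

/-!
# P284 (helper639), spanning curves, part 2: spaces of holomorphic functions of constant rank
-/

open scoped Manifold ContDiff Topology Pointwise ComplexConjugate
open Filter Set Metric Function

noncomputable section

namespace Vale.Agent.P284.H639.S

open Vale.Agent.P272.K

variable {n : ℕ}

/-- words of length less than `k` -/
def Wd (n k : ℕ) : Type := {l : List (Fin n) // l.length < k}

instance (k : ℕ) : Finite (Wd n k) := (List.finite_length_lt (Fin n) k).to_subtype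

instance (k : ℕ) : Fintype (Wd n k) := Fintype.ofFinite _

def ex (i : Fin n) : Cm n := Pi.single i 1

theorem span_ex : Submodule.span ℂ (range (ex : Fin n → Cm n)) = ⊤ := by
  have h := (Pi.basisFun ℂ (Fin n)).span_eq
  have e : range (Pi.basisFun ℂ (Fin n)) = range (ex : Fin n → Cm n) := by
    congr 1
    funext i
    simp [ex]
  rw [← e]
  exact h

theorem ML.words {T : List (Cm n) → ℂ} (hT : ML T) {q : ℕ}
    (h : ∀ l : List (Fin n), l.length = q → T (l.map ex) = 0) :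
    ∀ L : List (Cm n), L.length = q → T L = 0 := by
  refine hT.span span_ex fun L hL hm => ?_
  have h1 : L ∈ range (List.map (ex : Fin n → Cm n)) := by
    rw [Set.range_list_map]
    exact hm
  obtain ⟨l, rfl⟩ := h1
  exact h l (by simpa using hL)

/-- jets -/
def J (k : ℕ) (g : Cm n → ℂ) (z : Cm n) : Wd n k → ℂ := fun l => DL (l.1.map ex) g z

/-- all derivatives of order less than `k` vanish -/
def Fl (k : ℕ) (g : Cm n → ℂ) (z : Cm n) : Prop :=
  ∀ L : List (Cm n), L.length < k → DL L g z = 0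

variable {U : Set (Cm n)} {g : Cm n → ℂ} {z : Cm n}

theorem fl_iff (hU : IsOpen U) (hg : AnalyticOnNhd ℂ g U) (hz : z ∈ U) (k : ℕ) :
    Fl k g z ↔ J k g z = 0 := by
  constructor
  · intro h
    funext l
    exact h _ (by simpa using l.2)
  · intro h L hL
    refine (ml_DL hU hg hz).words (q := L.length) (fun l hl => ?_) L rfl
    exact congrFun h ⟨l, by omega⟩

theorem fl_succ {k : ℕ} (h : Fl k g z) (h' : ∀ L : List (Cm n), L.length = k → DL L g z = 0) :
    Fl (k + 1) g z := by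
  intro L hL
  rcases Nat.lt_succ_iff_lt_or_eq.1 hL with h1 | h1
  · exact h L h1
  · exact h' L h1

theorem Fl.mono {k k' : ℕ} (h : Fl k g z) (hk : k' ≤ k) : Fl k' g z :=
  fun L hL => h L (by omega)

/-- `k`-jets at `z` have rank at least `r` -/
def Rk (𝓖 : Submodule ℂ (Cm n → ℂ)) (k r : ℕ) (z : Cm n) : Prop :=
  ∃ G : Fin r → Cm n → ℂ, (∀ i, G i ∈ 𝓖) ∧ LinearIndependent ℂ fun i => J k (G i) z

variable {𝓖 : Submodule ℂ (Cm n → ℂ)}

theorem Rk.le {k r : ℕ} (h : Rk 𝓖 k r z) : r ≤ Fintype.card (Wd n k) := by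
  obtain ⟨G, -, h⟩ := h
  have := h.fintype_card_le_finrank
  simpa using this

theorem Rk.mono {k r s : ℕ} (h : Rk 𝓖 k r z) (hs : s ≤ r) : Rk 𝓖 k s z := by
  obtain ⟨G, hG, h⟩ := h
  exact ⟨fun i => G (Fin.castLE hs i), fun i => hG _,
    h.comp (Fin.castLE hs) (Fin.castLE_injective hs)⟩

theorem rk_zero (k : ℕ) : Rk 𝓖 k 0 z := ⟨fun i => i.elim0, fun i => i.elim0, linearIndependent_empty_type⟩

theorem J_cont (hg : AnalyticOnNhd ℂ g U) (hz : z ∈ U) (k : ℕ) :
    ContinuousAt (fun z => J k g z) z :=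
  continuousAt_pi.2 fun l => (DL_analytic hg (l.1.map ex) z hz).continuousAt

theorem Rk.eventually (han : ∀ g ∈ 𝓖, AnalyticOnNhd ℂ g U) (hz : z ∈ U) {k r : ℕ}
    (h : Rk 𝓖 k r z) : ∀ᶠ y in 𝓝 z, Rk 𝓖 k r y := by
  obtain ⟨G, hG, h⟩ := h
  have h1 : Tendsto (fun y => fun i => J k (G i) y) (𝓝 z) (𝓝 fun i => J k (G i) z) :=
    tendsto_pi_nhds.2 fun i => J_cont (han _ (hG i)) hz k
  filter_upwards [h1.eventually h.eventually] with y hy
  exact ⟨G, hG, hy⟩

theorem sum_mem' {r : ℕ} {G : Fin r → Cm n → ℂ} (hG : ∀ i, G i ∈ 𝓖) (c : Fin r → ℂ) :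
    (fun z => ∑ i, c i * G i z) ∈ 𝓖 := by
  have e : (fun z => ∑ i, c i * G i z) = ∑ i, c i • G i := by
    funext z
    simp
  rw [e]
  exact Submodule.sum_mem _ fun i _ => Submodule.smul_mem _ _ (hG i)

/-- **Contraction**: if the rank of the `k`-jets is constant near `z₀`. -/
theorem contr (hU : IsOpen U) (han : ∀ g ∈ 𝓖, AnalyticOnNhd ℂ g U) {k r : ℕ} {z₀ : Cm n}
    (hz₀ : z₀ ∈ U) (h1 : Rk 𝓖 k r z₀) (h2 : ∀ᶠ z in 𝓝 z₀, ¬ Rk 𝓖 k (r + 1) z) (hg : g ∈ 𝓖)
    (hfl : Fl k g z₀) (v : Cm n) :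
    ∃ h ∈ 𝓖, ∀ L : List (Cm n), L.length < k → DL L h z₀ = DL (v :: L) g z₀ := by
  obtain ⟨G, hG, hli⟩ := h1
  obtain ⟨w, hw⟩ : ∃ w : Wd n k → ℂ, w = fun l => DL (v :: l.1.map ex) g z₀ := ⟨_, rfl⟩
  by_cases hws : w ∈ Submodule.span ℂ (range fun i => J k (G i) z₀)
  · obtain ⟨c, hc⟩ := (Submodule.mem_span_range_iff_exists_fun ℂ).1 hws
    refine ⟨fun z => ∑ i, c i * G i z, sum_mem' hG c, fun L hL => ?_⟩
    have hh : AnalyticOnNhd ℂ (fun z => ∑ i, c i * G i z) U := han _ (sum_mem' hG c)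
    have hT := (ml_DL hU hh hz₀).sub ((ml_DL hU (han g hg) hz₀).cons v)
    refine sub_eq_zero.1 (hT.words (q := L.length) (fun l hl => ?_) L rfl)
    rw [sub_eq_zero, DL_sum Finset.univ c G hU (fun i _ => han _ (hG i)) _ z₀ hz₀]
    rw [hw] at hc
    obtain ⟨l', rfl⟩ : ∃ l' : Wd n k, l'.1 = l := ⟨⟨l, by omega⟩, rfl⟩
    refine Eq.trans ?_ (congrFun hc l')
    rw [Finset.sum_apply]
    rfl
  · exfalso
    have hli' : LinearIndependent ℂ
        (Fin.cons w (fun i => J k (G i) z₀) : Fin (r + 1) → Wd n k → ℂ) :=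
      linearIndependent_finCons.2 ⟨hli, hws⟩
    have hline : Tendsto (fun t : ℂ => z₀ + t • v) (𝓝[≠] 0) (𝓝 z₀) := by
      have hc : ContinuousAt (fun t : ℂ => z₀ + t • v) 0 := by fun_prop
      have := hc.tendsto
      simp only [zero_smul, add_zero] at this
      exact this.mono_left nhdsWithin_le_nhds
    have htd : Tendsto (fun t : ℂ => (Fin.cons (t⁻¹ • J k g (z₀ + t • v))
        (fun i => J k (G i) (z₀ + t • v)) : Fin (r + 1) → Wd n k → ℂ)) (𝓝[≠] 0)
        (𝓝 (Fin.cons w (fun i => J k (G i) z₀))) := by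
      refine tendsto_pi_nhds.2 fun i => ?_
      refine Fin.cases ?_ (fun i => ?_) i
      · simp only [Fin.cons_zero]
        refine tendsto_pi_nhds.2 fun l => ?_
        have h3 := (DL_analytic (han g hg) (l.1.map ex) z₀ hz₀).differentiableAt.hasFDerivAt
        have h4 : HasDerivAt (fun t : ℂ => z₀ + t • v) v 0 := by
          have := ((hasDerivAt_id (0 : ℂ)).smul_const v).const_add z₀
          simpa using this
        have h5 : HasDerivAt (fun t : ℂ => DL (l.1.map ex) g (z₀ + t • v))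
            (DL (v :: l.1.map ex) g z₀) 0 := by
          refine HasFDerivAt.comp_hasDerivAt (l := DL (l.1.map ex) g)
            (f := fun t : ℂ => z₀ + t • v) 0 ?_ h4
          simpa using h3
        have h6 := h5.tendsto_slope_zero
        have h7 : DL (l.1.map ex) g z₀ = 0 := hfl _ (by simpa using l.2)
        simp only [zero_add, zero_smul, add_zero, h7, sub_zero] at h6
        rw [hw]
        exact h6
      · simp only [Fin.cons_succ]
        exact (J_cont (han _ (hG i)) hz₀ k).tendsto.comp hline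
    obtain ⟨t, h3, h4, h5⟩ := ((htd.eventually hli'.eventually).and
      ((hline.eventually h2).and (self_mem_nhdsWithin : {t : ℂ | t ≠ 0} ∈ 𝓝[≠] 0))).exists
    obtain ⟨h6, h7⟩ := linearIndependent_finCons.1 h3
    refine h4 ⟨Fin.cons g G, fun i => Fin.cases hg hG i, ?_⟩
    have e : (fun i : Fin (r + 1) => J k ((Fin.cons g G : Fin (r + 1) → Cm n → ℂ) i) (z₀ + t • v)) =
        Fin.cons (J k g (z₀ + t • v)) (fun i => J k (G i) (z₀ + t • v)) := by
      funext i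
      refine Fin.cases ?_ (fun i => ?_) i <;> simp
    rw [e]
    refine linearIndependent_finCons.2 ⟨h6, fun h8 => h7 ?_⟩
    exact Submodule.smul_mem _ _ h8

/-- open sets where the ranks are constant -/
theorem exists_const (hU : IsOpen U) (hne : U.Nonempty) (han : ∀ g ∈ 𝓖, AnalyticOnNhd ℂ g U)
    (K : ℕ) : ∃ O ⊆ U, IsOpen O ∧ O.Nonempty ∧
      ∀ k < K, ∃ r, ∀ z ∈ O, Rk 𝓖 k r z ∧ ¬ Rk 𝓖 k (r + 1) z := by
  induction K with
  | zero => exact ⟨U, Subset.rfl, hU, hne, fun k hk => absurd hk (Nat.not_lt_zero k)⟩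
  | succ K ih =>
    obtain ⟨O, hOU, hO, hOne, hr⟩ := ih
    obtain ⟨r, ⟨z₁, hz₁, h1⟩, h2⟩ : ∃ r, (∃ z ∈ O, Rk 𝓖 K r z) ∧ ∀ z ∈ O, ¬ Rk 𝓖 K (r + 1) z := by
      by_contra hcon
      push Not at hcon
      have h3 : ∀ r, ∃ z ∈ O, Rk 𝓖 K r z := by
        intro r
        induction r with
        | zero =>
          obtain ⟨z, hz⟩ := hOne
          exact ⟨z, hz, rk_zero K⟩
        | succ r ihr =>
          obtain ⟨z, hz, h⟩ := ihr
          exact hcon r ⟨z, hz, h⟩
      obtain ⟨z, -, h⟩ := h3 (Fintype.card (Wd n K) + 1)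
      have := h.le
      omega
    obtain ⟨O', hO', hO'o, hz₁'⟩ := _root_.mem_nhds_iff.1 (h1.eventually han (hOU hz₁))
    refine ⟨O ∩ O', fun z hz => hOU hz.1, hO.inter hO'o, ⟨z₁, hz₁, hz₁'⟩, fun k hk => ?_⟩
    rcases Nat.lt_succ_iff_lt_or_eq.1 hk with h | rfl
    · obtain ⟨r', h'⟩ := hr k h
      exact ⟨r', fun z hz => h' z hz.1⟩
    · exact ⟨r, fun z hz => ⟨hO' hz.2, h2 z hz.1⟩⟩

/-- restriction of jets -/
def rs (n : ℕ) {k k' : ℕ} (h : k ≤ k') : (Wd n k' → ℂ) →ₗ[ℂ] (Wd n k → ℂ) :=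
  LinearMap.funLeft ℂ ℂ fun l => ⟨l.1, lt_of_lt_of_le l.2 h⟩

theorem rs_J {k k' : ℕ} (h : k ≤ k') (g : Cm n → ℂ) (z : Cm n) : rs n h (J k' g z) = J k g z := rfl

theorem Rk.up {k k' r : ℕ} (hk : k ≤ k') (h : Rk 𝓖 k r z) : Rk 𝓖 k' r z := by
  obtain ⟨G, hG, h⟩ := h
  refine ⟨G, hG, LinearIndependent.of_comp (rs n hk) ?_⟩
  exact h

/-- if flatness of order `k` implies flatness of order `k'`, then the ranks agree -/
theorem Rk.down (hU : IsOpen U) (han : ∀ g ∈ 𝓖, AnalyticOnNhd ℂ g U) (hz : z ∈ U) {k k' r : ℕ}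
    (hf : ∀ g ∈ 𝓖, Fl k g z → Fl k' g z) (h : Rk 𝓖 k' r z) : Rk 𝓖 k r z := by
  obtain ⟨G, hG, h⟩ := h
  refine ⟨G, hG, ?_⟩
  rw [Fintype.linearIndependent_iff] at h ⊢
  intro c hc
  refine h c ?_
  have hs := sum_mem' hG c
  have ha := han _ hs
  have e : ∀ k'', J k'' (fun z => ∑ i, c i * G i z) z = ∑ i, c i • J k'' (G i) z := by
    intro k''
    funext l
    simp only [J]
    rw [DL_sum Finset.univ c G hU (fun i _ => han _ (hG i)) _ z hz]
    simp [J]
  rw [← e]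
  rw [← e] at hc
  exact (fl_iff hU ha hz k').1 (hf _ hs ((fl_iff hU ha hz k).2 hc))

theorem Rk.step (hU : IsOpen U) (han : ∀ g ∈ 𝓖, AnalyticOnNhd ℂ g U) (hz : z ∈ U) {k r : ℕ}
    (h : Rk 𝓖 k r z) (hg : g ∈ 𝓖) (hf : Fl k g z) (hf' : ¬ Fl (k + 1) g z) :
    Rk 𝓖 (k + 1) (r + 1) z := by
  obtain ⟨G, hG, h⟩ := h
  refine ⟨Fin.cons g G, fun i => Fin.cases hg hG i, ?_⟩
  have e : (fun i : Fin (r + 1) => J (k + 1) ((Fin.cons g G : Fin (r + 1) → Cm n → ℂ) i) z) =
      Fin.cons (J (k + 1) g z) (fun i => J (k + 1) (G i) z) := by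
    funext i
    refine Fin.cases ?_ (fun i => ?_) i <;> simp
  rw [e]
  refine linearIndependent_finCons.2 ⟨LinearIndependent.of_comp (rs n (Nat.le_succ k)) h,
    fun h1 => hf' ((fl_iff hU (han g hg) hz _).2 ?_)⟩
  obtain ⟨c, hc⟩ := (Submodule.mem_span_range_iff_exists_fun ℂ).1 h1
  have h2 := congrArg (rs n (Nat.le_succ k)) hc
  rw [map_sum, rs_J, (fl_iff hU (han g hg) hz k).1 hf] at h2
  simp only [map_smul, rs_J] at h2
  have h3 := Fintype.linearIndependent_iff.1 h c h2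
  rw [← hc]
  simp [h3]

theorem exists_finset {D : Set (Cm n)} (hD : Submodule.span ℂ D = ⊤) :
    ∃ S : Finset (Cm n), (S : Set (Cm n)) ⊆ D ∧ S.card ≤ n ∧
      Submodule.span ℂ (S : Set (Cm n)) = ⊤ := by
  obtain ⟨b, hb, hs, hli⟩ := exists_linearIndependent ℂ D
  have hf : b.Finite := hli.setFinite
  refine ⟨hf.toFinset, by simpa using hb, ?_, by rw [hf.coe_toFinset, hs, hD]⟩
  have : Fintype b := hf.fintype
  have h1 := hli.fintype_card_le_finrank
  rw [Module.finrank_fin_fun] at h1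
  rw [← Set.toFinset_card] at h1
  convert h1 using 2
  ext x
  simp

/-! ### The theorem -/

/-- iterated contraction -/
theorem iter {z₀ : Cm n} {K : ℕ}
    (hcon : ∀ k ≤ K, ∀ g ∈ 𝓖, Fl k g z₀ → ∀ v, ∃ h ∈ 𝓖,
      ∀ L : List (Cm n), L.length < k → DL L h z₀ = DL (v :: L) g z₀) :
    ∀ (A : List (Cm n)) (k : ℕ), A.length + k ≤ K → ∀ g ∈ 𝓖, Fl (A.length + k) g z₀ →
      ∃ h ∈ 𝓖, Fl k h z₀ ∧ ∀ L : List (Cm n), L.length = k → DL L h z₀ = DL (A ++ L) g z₀ := by
  intro A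
  induction A with
  | nil =>
    intro k _ g hg hf
    exact ⟨g, hg, by simpa using hf, fun L _ => rfl⟩
  | cons v A ih =>
    intro k hk g hg hf
    rw [List.length_cons] at hk hf
    obtain ⟨g₁, hg₁, h1⟩ := hcon _ hk g hg hf v
    have hf₁ : Fl (A.length + k) g₁ z₀ := by
      intro L hL
      rw [h1 L (by omega)]
      exact hf _ (by rw [List.length_cons]; omega)
    obtain ⟨h, hh, hfh, h2⟩ := ih k (by omega) g₁ hg₁ hf₁
    refine ⟨h, hh, hfh, fun L hL => ?_⟩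
    rw [h2 L hL, h1 _ (by rw [List.length_append]; omega), List.cons_append]

/-- **Finite type**, with the order. -/
theorem finite_type' (hU : IsOpen U) (hc : Convex ℝ U) (hne : U.Nonempty)
    (han : ∀ g ∈ 𝓖, AnalyticOnNhd ℂ g U) {P : Set (Cm n)}
    (hP : ∀ O ⊆ U, IsOpen O → O.Nonempty → (O ∩ P).Nonempty) {m : ℕ}
    (hD : ∀ z ∈ U, z ∈ P → ∃ D : Set (Cm n), Submodule.span ℂ D = ⊤ ∧ ∀ v ∈ D, ∀ g ∈ 𝓖,
      Fl (m + 2) g z → DL (List.replicate (m + 2) v) g z = 0) :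
    ∃ z ∈ U, ∀ g ∈ 𝓖, Fl (n * (m + 1) + 1) g z → ∀ y ∈ U, g y = 0 := by
  classical
  obtain ⟨K, hK⟩ : ∃ K, K = n * (m + 1) + 1 := ⟨_, rfl⟩
  rw [← hK]
  obtain ⟨O, hOU, hO, hOne, hr⟩ := exists_const hU hne han (K + 2)
  obtain ⟨z₀, hz₀, hz₀P⟩ := hP O hOU hO hOne
  -- contraction at `z₀`
  have hcon : ∀ k ≤ K + 1, ∀ z ∈ O, ∀ g ∈ 𝓖, Fl k g z → ∀ v, ∃ h ∈ 𝓖,
      ∀ L : List (Cm n), L.length < k → DL L h z = DL (v :: L) g z := by
    intro k hk z hz g hg hf v
    obtain ⟨r, hr'⟩ := hr k (by omega)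
    exact contr hU han (hOU hz) (hr' z hz).1
      (by filter_upwards [hO.mem_nhds hz] with y hy using (hr' y hy).2) hg hf v
  -- at `z₀`
  have hA : ∀ g ∈ 𝓖, Fl K g z₀ → Fl (K + 1) g z₀ := by
    intro g hg hf
    refine fl_succ hf ?_
    obtain ⟨D, hDs, hDv⟩ := hD z₀ (hOU hz₀) hz₀P
    obtain ⟨S, hSD, hSc, hSs⟩ := exists_finset hDs
    refine (ml_DL hU (han g hg) (hOU hz₀)).span hSs fun L hL hLS => ?_
    -- pigeonhole
    obtain ⟨v, hv, hvc⟩ : ∃ v ∈ S, m + 2 ≤ L.count v := by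
      by_contra hcon'
      push Not at hcon'
      have h1 : ∑ v ∈ S, L.count v = L.length := by
        have := Multiset.sum_count_eq_card (s := S) (m := (L : Multiset (Cm n)))
          (fun a ha => hLS a (by simpa using ha))
        simpa using this
      have h2 : ∑ v ∈ S, L.count v ≤ ∑ _v ∈ S, (m + 1) :=
        Finset.sum_le_sum fun v hv => by
          have := hcon' v hv
          omega
      rw [Finset.sum_const, smul_eq_mul] at h2
      have h3 : S.card * (m + 1) ≤ n * (m + 1) := Nat.mul_le_mul_right _ hSc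
      omega
    obtain ⟨A, hA⟩ : ∃ A : List (Cm n), L.Perm (A ++ List.replicate (m + 2) v) := by
      have h1 := (List.filter_append_perm (fun x => decide (x = v)) L).symm
      have h2 : L.filter (fun x => decide (x = v)) = List.replicate (L.count v) v := by
        have := List.filter_beq (a := v) (l := L)
        rw [← this]
        congr 1
      rw [h2] at h1
      obtain ⟨c, hcc⟩ : ∃ c, L.count v = c + (m + 2) := ⟨L.count v - (m + 2), by omega⟩
      rw [hcc, List.replicate_add] at h1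
      refine ⟨L.filter (fun x => !decide (x = v)) ++ List.replicate c v, ?_⟩
      refine h1.trans (List.perm_append_comm.trans ?_)
      rw [List.append_assoc]
    have hlen : A.length + (m + 2) = K := by
      have := hA.length_eq
      rw [List.length_append, List.length_replicate] at this
      omega
    obtain ⟨h, hh, hfh, h2⟩ := iter (𝓖 := 𝓖) (K := K) (fun k hk g hg hf v =>
      hcon k (by omega) z₀ hz₀ g hg hf v) A (m + 2) hlen.le g hg (by rw [hlen]; exact hf)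
    show DL L g z₀ = 0
    rw [DL_perm hU (han g hg) hA z₀ (hOU hz₀), ← h2 _ (by simp)]
    exact hDv v (hSD hv) h hh hfh
  -- everywhere on `O`
  obtain ⟨r, hrK⟩ := hr K (by omega)
  obtain ⟨r', hrK'⟩ := hr (K + 1) (by omega)
  have hrr : r' ≤ r := by
    by_contra hlt
    have h1 : Rk 𝓖 K r' z₀ := ((hrK' z₀ hz₀).1).down hU han (hOU hz₀) hA
    exact (hrK z₀ hz₀).2 (h1.mono (by omega))
  have hB : ∀ z ∈ O, ∀ g ∈ 𝓖, Fl K g z → Fl (K + 1) g z := by
    intro z hz g hg hf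
    by_contra hn
    have h1 := (((hrK z hz).1).mono hrr).step hU han (hOU hz) hg hf hn
    exact (hrK' z hz).2 h1
  have hC : ∀ j, ∀ z ∈ O, ∀ g ∈ 𝓖, Fl K g z → Fl (K + (j + 1)) g z := by
    intro j
    induction j with
    | zero => exact hB
    | succ j ih =>
      intro z hz g hg hf
      refine fl_succ (k := K + (j + 1)) (ih z hz g hg hf) ?_
      have h1 : Rk 𝓖 (K + (j + 1)) r z := ((hrK z hz).1).up (by omega)
      have h2 : ∀ᶠ y in 𝓝 z, ¬ Rk 𝓖 (K + (j + 1)) (r + 1) y := by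
        filter_upwards [hO.mem_nhds hz] with y hy h3
        exact (hrK y hy).2 (h3.down hU han (hOU hy) (ih y hy))
      intro L hL
      obtain ⟨v, L, rfl⟩ : ∃ v L', L = v :: L' := by
        cases L with
        | nil => simp at hL
        | cons v L => exact ⟨v, L, rfl⟩
      rw [List.length_cons] at hL
      obtain ⟨h, hh, h3⟩ := contr hU han (hOU hz) h1 h2 hg (ih z hz g hg hf) v
      rw [← h3 L (by omega)]
      refine ih z hz h hh ?_ L (by omega)
      intro L' hL'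
      rw [h3 L' (by omega)]
      exact ih z hz g hg hf _ (by rw [List.length_cons]; omega)
  refine ⟨z₀, hOU hz₀, fun g hg hf => zero_of_flat hU hc (han g hg) (hOU hz₀) fun L => ?_⟩
  exact hC L.length z₀ hz₀ g hg hf L (by omega)

/-- **Finite type**: at a dense set of points there are spanning sets of directions in which the leading
forms of order `m + 2` vanish. -/
theorem finite_type (hU : IsOpen U) (hc : Convex ℝ U) (hne : U.Nonempty)
    (han : ∀ g ∈ 𝓖, AnalyticOnNhd ℂ g U) {P : Set (Cm n)}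
    (hP : ∀ O ⊆ U, IsOpen O → O.Nonempty → (O ∩ P).Nonempty) {m : ℕ}
    (hD : ∀ z ∈ U, z ∈ P → ∃ D : Set (Cm n), Submodule.span ℂ D = ⊤ ∧ ∀ v ∈ D, ∀ g ∈ 𝓖,
      Fl (m + 2) g z → DL (List.replicate (m + 2) v) g z = 0) :
    ∃ z ∈ U, ∃ K, ∀ g ∈ 𝓖, Fl K g z → ∀ y ∈ U, g y = 0 := by
  obtain ⟨z, hz, h⟩ := finite_type' hU hc hne han hP hD
  exact ⟨z, hz, _, h⟩

end Vale.Agent.P284.H639.S
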