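import Vale.Agent.P284.H639.S.Gr
import Vale.Agent.P284.H10.Rank
import Vale.Agent.P284.H894.F.DefsC

/-!
# P284 (helper639), spanning curves, part 7: the rank lemma
-/

open scoped Manifold ContDiff Topology Pointwise ComplexConjugate ComplexOrder
open Filter Set Metric MeasureTheory Asymptotics

noncomputable section

namespace Vale.Agent.P284.H639.S

open Vale.Agent.P272.K Vale.Agent.P284.H894.V Vale.Agent.P284.H894.F Vale.Agent.P284.H5.V
  Vale.Agent.P284.H894 Vale.Agent.P284.H66.FDs Vale.Agent.P284.H894.W Vale.Agent.P284.H894.G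

variable {n N : ℕ}

section
variable {X : Type} [TopologicalSpace X] [ChartedSpace (Cm n) X] [IsManifold 𝓘(ℂ, Cm n) ω X]
  {E : Type} [TopologicalSpace E]
  {p : E → X} {w : Chart n X → Cm n → Matrix (Fin n) (Fin n) ℂ} {B : ℝ} {F : E → Cm N}

omit [IsManifold 𝓘(ℂ, Cm n) ω X] in
theorem sec_hol (hF : HolB p w F B) {e : Chart n X} {y₀ : E} (he : At e (p y₀)) {r : ℝ}
    {σ : Cm n → E} (hσ : LSec p e y₀ r σ) :
    AnalyticOnNhd ℂ (fun z => F (σ z)) (ball (e (p y₀)) r) := by
  have hd : DifferentiableOn ℂ (fun z => F (σ z)) (ball (e (p y₀)) r) := by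
    intro z hz
    obtain ⟨f, hf1, hf2, -⟩ := hF (σ z) e ⟨he.1, hσ.src z hz⟩
    rw [hσ.inv z hz] at hf2
    have hc : ContinuousAt σ z := hσ.cont.continuousAt (isOpen_ball.mem_nhds hz)
    have h1 : (fun z => F (σ z)) =ᶠ[𝓝 z] f := by
      filter_upwards [hc.eventually hf1, isOpen_ball.mem_nhds hz] with y h2 h3
      rw [h2, hσ.inv y h3]
    exact (hf2.self_of_nhds.congr_of_eventuallyEq h1).differentiableWithinAt
  intro z hz
  rw [analyticAt_pi_iff]
  intro k
  exact Vale.Agent.P281.MF.analyticAt_of_differentiableOn isOpen_ball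
    (differentiableOn_pi.1 hd k) hz

/-- regular points from the local section -/
theorem reg_of_sec (hp : IsCoveringMap p) {e : Chart n X} {y₀ : E} (he : At e (p y₀)) {r : ℝ}
    {σ : Cm n → E} (hσ : LSec p e y₀ r σ) {z : Cm n} (hz : z ∈ ball (e (p y₀)) r)
    (hd : DifferentiableAt ℂ (fun z => F (σ z)) z)
    (hs : Function.Surjective (fderiv ℂ (fun z => F (σ z)) z)) : Reg (n := n) p F (σ z) := by
  intro e' f he' hf
  have hez : At e (p (σ z)) := ⟨he.1, hσ.src z hz⟩
  have hezz : e (p (σ z)) = z := hσ.inv z hz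
  -- `f` is differentiable
  have hT' := transition_differentiableAt he' hez
  have hpe : p (σ z) = e'.symm (e' (p (σ z))) := (e'.left_inv he'.2).symm
  have h1 : f =ᶠ[𝓝 (e' (p (σ z)))] fun x => F (σ (e (e'.symm x))) := by
    rw [← map_nhds_chart hp he'.2, EventuallyEq, eventually_map]
    filter_upwards [hf, sec_near hp hσ hz,
      hp.continuous.continuousAt.eventually (e'.open_source.mem_nhds he'.2)] with y h2 h3 h4
    rw [e'.left_inv h4, h3, h2]
  have h2 : DifferentiableAt ℂ (fun x => F (σ (e (e'.symm x)))) (e' (p (σ z))) := by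
    refine DifferentiableAt.comp (g := fun z => F (σ z)) (f := fun x => e (e'.symm x))
      (e' (p (σ z))) ?_ hT'
    rw [e'.left_inv he'.2, hezz]
    exact hd
  have hfd : DifferentiableAt ℂ f (e' (p (σ z))) := h2.congr_of_eventuallyEq h1
  -- the other transition
  have hT := transition_differentiableAt hez he'
  have hcσ : ContinuousAt σ z := hσ.cont.continuousAt (isOpen_ball.mem_nhds hz)
  have h3 : (fun z => F (σ z)) =ᶠ[𝓝 z] fun x => f (e' (e.symm x)) := by
    filter_upwards [hcσ.eventually hf, isOpen_ball.mem_nhds hz] with x h4 h5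
    have h6 : p (σ x) = e.symm x := by
      have h7 := hσ.inv x h5
      rw [← h7, e.left_inv (hσ.src x h5), h7]
    rw [h4, h6]
  rw [hezz] at hT
  have h4 : e' (e.symm z) = e' (p (σ z)) := by
    rw [← hezz, e.left_inv hez.2, hezz]
  have h5 : HasFDerivAt (fun x => f (e' (e.symm x)))
      ((fderiv ℂ f (e' (p (σ z)))).comp (fderiv ℂ (fun x => e' (e.symm x)) z)) z := by
    refine HasFDerivAt.comp (g := f) (f := fun x => e' (e.symm x)) z ?_ hT.hasFDerivAt
    rw [h4]
    exact hfd.hasFDerivAt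
  rw [h3.fderiv_eq, h5.fderiv] at hs
  intro c
  obtain ⟨v, hv⟩ := hs c
  exact ⟨_, hv⟩

end

theorem num_aux (n N m r : ℕ) (hr : r < N) : ∃ D : ℕ,
    (n * (N * (D * (m + 1)) + 1) + 1) ^ r < (D + 1) ^ N := by
  obtain ⟨C, hC⟩ : ∃ C, C = n * (N * (m + 1) + 1) + 1 := ⟨_, rfl⟩
  refine ⟨C ^ r, ?_⟩
  obtain ⟨D, hD⟩ : ∃ D, D = C ^ r := ⟨_, rfl⟩
  rw [← hD]
  have h1 : n * (N * (D * (m + 1)) + 1) + 1 ≤ C * (D + 1) := by
    rw [hC]
    nlinarith [Nat.zero_le n, Nat.zero_le (N * (m + 1)), Nat.zero_le D,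
      Nat.zero_le (n * D), Nat.zero_le (n * (N * (m + 1)))]
  calc (n * (N * (D * (m + 1)) + 1) + 1) ^ r ≤ (C * (D + 1)) ^ r := Nat.pow_le_pow_left h1 r
    _ = D * (D + 1) ^ r := by rw [mul_pow, ← hD]
    _ < (D + 1) * (D + 1) ^ r := by
        refine Nat.mul_lt_mul_of_pos_right (Nat.lt_succ_self D) (by positivity)
    _ = (D + 1) ^ (r + 1) := by rw [pow_succ, mul_comm]
    _ ≤ (D + 1) ^ N := Nat.pow_le_pow_right (Nat.succ_pos D) hr

/-- **The rank lemma for spanning curves.** -/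
theorem rankSpan {n : ℕ} {X : Type} [TopologicalSpace X] [T2Space X] [CompactSpace X]
    [ConnectedSpace X] [ChartedSpace (Cm n) X] [IsManifold 𝓘(ℂ, Cm n) ω X]
    {w : Chart n X → Cm n → Matrix (Fin n) (Fin n) ℂ} (hw : IsHermitian w)
    (h : Vale.Agent.P284.H894.F.CurveSpan w) (E Γ : Type) [TopologicalSpace E] [ConnectedSpace E]
    [Group Γ] [MulAction Γ E] (p : E → X) (hp : IsGalois Γ p) (G K : Subgroup Γ) (N : ℕ)
    (F : E → Cm N) (c : Γ → Cm N) (hA : Alb p w G K F c) :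
    N ≤ n ∧ ∃ y, Reg (n := n) p F y := by
  obtain ⟨B, hB⟩ := hA.hol
  have hcov := hp.cov
  obtain ⟨ρ, x₁, hx₁⟩ := h
  obtain ⟨Px, hPx⟩ : ∃ Px : Set X, Px = {x : X |
    Submodule.span ℂ {v : Cm n | ∃ f, FiniteOrderCurve w x v ρ f} = ⊤} := ⟨_, rfl⟩
  rw [← hPx] at hx₁
  obtain ⟨y₀, rfl⟩ := hp.surj x₁
  obtain ⟨m, hm⟩ : ∃ m : ℕ, ρ ≤ 2 * m := by
    obtain ⟨m, hm⟩ := exists_nat_ge ρ
    exact ⟨m, by have : (0 : ℝ) ≤ m := Nat.cast_nonneg m
                 linarith⟩
  obtain ⟨e, he⟩ : ∃ e : Chart n X, e = chartAt (Cm n) (p y₀) := ⟨_, rfl⟩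
  have hAt : At e (p y₀) := by rw [he]; exact at_chartAt _
  obtain ⟨r, σ, hσ⟩ := exists_lsec hcov (e := e) hAt.2
  have hr := hσ.pos
  -- the ball
  have hNo : IsOpen (e.target ∩ e.symm ⁻¹' (interior (closure Px))) :=
    e.isOpen_inter_preimage_symm isOpen_interior
  have hNm : e (p y₀) ∈ e.target ∩ e.symm ⁻¹' (interior (closure Px)) := by
    refine ⟨e.map_source hAt.2, ?_⟩
    show e.symm (e (p y₀)) ∈ interior (closure Px)
    rw [e.left_inv hAt.2]
    exact hx₁
  obtain ⟨r₀, hr₀, hb₀⟩ := Metric.isOpen_iff.1 hNo _ hNm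
  obtain ⟨U, hUd⟩ : ∃ U, U = ball (e (p y₀)) (min r r₀) := ⟨_, rfl⟩
  have hU : IsOpen U := by rw [hUd]; exact isOpen_ball
  have hz₀U : e (p y₀) ∈ U := by rw [hUd]; exact mem_ball_self (lt_min hr hr₀)
  have hUr : U ⊆ ball (e (p y₀)) r := by rw [hUd]; exact ball_subset_ball (min_le_left _ _)
  have hUN : U ⊆ e.target ∩ e.symm ⁻¹' (interior (closure Px)) := by
    rw [hUd]; exact (ball_subset_ball (min_le_right _ _)).trans hb₀
  have hHan : AnalyticOnNhd ℂ (fun z => F (σ z)) (ball (e (p y₀)) r) := sec_hol hB hAt hσ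
  have hHU : AnalyticOnNhd ℂ (fun z => F (σ z)) U := hHan.mono hUr
  have hex : ∃ z ∈ U, Function.Surjective (fderiv ℂ (fun z => F (σ z)) z) := by
    by_contra hcon
    push Not at hcon
    obtain ⟨z₁, ε, r', G', S, hε, hεU, hr'N, hFrm, hFn⟩ :=
      exists_frame hU ⟨_, hz₀U⟩ hHU hcon
    obtain ⟨D, hD⟩ := num_aux n N m r' hr'N
    obtain ⟨M, hM⟩ : ∃ M, M = N * (D * (m + 1)) := ⟨_, rfl⟩
    rw [← hM] at hD
    -- the space of polynomials
    obtain ⟨𝓖, h𝓖⟩ : ∃ 𝓖 : Submodule ℂ (Cm n → ℂ), 𝓖 = Submodule.span ℂ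
      (range fun β : Fin N → Fin (D + 1) => mon (fun k z => F (σ z) k) β) := ⟨_, rfl⟩
    have hmonan : ∀ β : Fin N → Fin (D + 1),
        AnalyticOnNhd ℂ (mon (fun k z => F (σ z) k) β) U := by
      intro β
      have hk : ∀ k : Fin N, AnalyticOnNhd ℂ (fun z => F (σ z) k) U := fun k z hz =>
        (analyticAt_pi_iff.1 (hHU z hz)) k
      intro z hz
      unfold mon
      exact Finset.analyticAt_fun_prod _ fun k _ => (hk k z hz).pow _
    have han : ∀ g ∈ 𝓖, AnalyticOnNhd ℂ g (ball z₁ ε) := by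
      intro g hg
      rw [h𝓖] at hg
      induction hg using Submodule.span_induction with
      | mem g hg =>
        obtain ⟨β, rfl⟩ := hg
        exact (hmonan β).mono hεU
      | zero => exact analyticOnNhd_const
      | add a b _ _ ha hb => exact ha.add hb
      | smul c a _ ha => exact fun z hz => (analyticAt_const (v := c)).smul (ha z hz)
    -- density
    have hP : ∀ O ⊆ ball z₁ ε, IsOpen O → O.Nonempty → (O ∩ {z | e.symm z ∈ Px}).Nonempty := by
      rintro O hOU hO ⟨z, hz⟩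
      have hzN := hUN (hεU (hOU hz))
      have h1 : e.symm z ∈ closure Px := interior_subset hzN.2
      have h2 : IsOpen (e.source ∩ e ⁻¹' O) := e.isOpen_inter_preimage hO
      have h3 : e.symm z ∈ e.source ∩ e ⁻¹' O := by
        refine ⟨e.map_target hzN.1, ?_⟩
        show e (e.symm z) ∈ O
        rw [e.right_inv hzN.1]
        exact hz
      obtain ⟨x', hx', hx'P⟩ := mem_closure_iff.1 h1 _ h2 h3
      refine ⟨e x', hx'.2, ?_⟩
      show e.symm (e x') ∈ Px
      rw [e.left_inv hx'.1]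
      exact hx'P
    -- the directions
    have hDir : ∀ z ∈ ball z₁ ε, z ∈ {z | e.symm z ∈ Px} → ∃ D : Set (Cm n),
        Submodule.span ℂ D = ⊤ ∧ ∀ v ∈ D, ∀ k ∈ 𝓖,
        Fl (M + 2) k z → DL (List.replicate (M + 2) v) k z = 0 := by
      intro z hz hzP
      have hzr : z ∈ ball (e (p y₀)) r := hUr (hεU hz)
      have hpz : p (σ z) = e.symm z := by
        have h1 := hσ.inv z hzr
        rw [← h1, e.left_inv (hσ.src z hzr), h1]
      have hAtz : At e (p (σ z)) := ⟨hAt.1, hσ.src z hzr⟩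
      have hsp : Submodule.span ℂ {v : Cm n | ∃ f, FiniteOrderCurve w (p (σ z)) v ρ f} = ⊤ := by
        have h1 : e.symm z ∈ Px := hzP
        rw [hPx] at h1
        rw [hpz]
        exact h1
      refine ⟨_, span_change hAtz hsp, ?_⟩
      rintro v' ⟨v, f, hf, rfl⟩ k hk hfl
      have hAt0 : At e (f 0) := by rw [hf.base]; exact hAtz
      have hd : HasDerivAt (fun t => e (f t)) (deriv (fun t => e (f t)) 0) 0 :=
        ((tau_sm hf.holo hAt0).differentiableAt (by simp)).hasDerivAt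
      have h0 : e (f 0) = z := by rw [hf.base]; exact hσ.inv z hzr
      refine dl_zero_of_curve isOpen_ball (han k hk) hz hd h0 ?_ hfl
      refine Gv.cv ?_ h0
      rw [h𝓖] at hk
      clear hfl
      induction hk using Submodule.span_induction with
      | mem k hk =>
        obtain ⟨β, rfl⟩ := hk
        rw [hM]
        exact gv_mon (fun k => gv_coord hw hcov hB hAt hσ hzr hf hm k) β
      | zero => exact gv_zero
      | add a b _ _ ha hb => exact ha.add hb
      | smul c a _ ha => exact ha.smul c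
    obtain ⟨z, hz, hK⟩ := finite_type' isOpen_ball (convex_ball z₁ ε)
      ⟨z₁, mem_ball_self hε⟩ han hP hDir
    obtain ⟨a, ha0, haf⟩ := exists_flat (D := D) hFrm hFn hz hD
    have hmem : (fun z => ∑ β, a β * mon (fun k z => F (σ z) k) β z) ∈ 𝓖 := by
      have e1 : (fun z => ∑ β, a β * mon (fun k z => F (σ z) k) β z) =
          ∑ β, a β • mon (fun k z => F (σ z) k) β := by
        funext z
        simp
      rw [e1, h𝓖]
      exact Submodule.sum_mem _ fun β _ => Submodule.smul_mem _ _ (Submodule.subset_span ⟨β, rfl⟩)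
    have hzero := hK _ hmem haf
    -- the polynomial relation
    have hz₁r : z₁ ∈ ball (e (p y₀)) r := hUr (hεU (mem_ball_self hε))
    have hev : ∀ᶠ y in 𝓝 (σ z₁), MvPolynomial.eval (F y) (pol a) = 0 := by
      have hc1 : ContinuousAt (fun y => e (p y)) (σ z₁) :=
        ContinuousAt.comp (g := e) (f := p) (e.continuousAt (hσ.src z₁ hz₁r))
          hcov.continuous.continuousAt
      have h2 : ∀ᶠ y in 𝓝 (σ z₁), e (p y) ∈ ball z₁ ε := by
        refine hc1.eventually (isOpen_ball.mem_nhds ?_)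
        show e (p (σ z₁)) ∈ ball z₁ ε
        rw [hσ.inv z₁ hz₁r]
        exact mem_ball_self hε
      filter_upwards [h2, sec_near hcov hσ hz₁r] with y h3 h4
      have h5 := hzero _ h3
      rw [← eval_pol a (fun k z => F (σ z) k)] at h5
      simp only [h4] at h5
      exact h5
    have hall := Vale.Agent.P284.H10.eval_zero_of_eventually hcov hB hev
    refine pol_ne_zero ha0 ?_
    have hne : Nonempty E := ⟨y₀⟩
    have hadd := alb_add hA
    refine Vale.Agent.P284.H10.zdense (Λ := c '' (G : Set Γ)) ⟨1, G.one_mem, ?_⟩ ?_ hA.span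
      (v₀ := F y₀) ?_
    · have h3 := hadd 1 G.one_mem 1 G.one_mem
      rw [mul_one] at h3
      simpa using h3
    · rintro _ ⟨g, hg, rfl⟩ _ ⟨h, hh, rfl⟩
      exact ⟨g * h, G.mul_mem hg hh, hadd g hg h hh⟩
    · rintro _ ⟨g, hg, rfl⟩
      rw [← hA.equiv g hg]
      exact hall _
  obtain ⟨z, hz, hs⟩ := hex
  refine ⟨?_, σ z, reg_of_sec hcov hAt hσ (hUr hz) (hHU z hz).differentiableAt hs⟩
  have := LinearMap.finrank_le_finrank_of_surjective
    (f := (fderiv ℂ (fun z => F (σ z)) z).toLinearMap) hs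
  simpa using this

end Vale.Agent.P284.H639.S
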