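import Vale.Agent.P284.H639.S.Rank
import Vale.Agent.P284.H66.FDs4

/-!
# P284 (helper639), spanning curves, part 3: the pluriharmonic functions with bounded gradient on a
covering of a compact manifold form a finite-dimensional space as soon as the directions of the entire
curves of order at most `ρ` span the tangent spaces at a somewhere dense set of points.
-/

open scoped Manifold ContDiff Topology Pointwise ComplexConjugate ComplexOrder
open Filter Set Metric MeasureTheory Asymptotics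

noncomputable section

namespace Vale.Agent.P284.H639.S

open Vale.Agent.P272.K Vale.Agent.P284.H894.V Vale.Agent.P284.H894.F Vale.Agent.P284.H5.V
  Vale.Agent.P284.H894 Vale.Agent.P284.H66.FDs

variable {n : ℕ}

/-- For some `ρ`, the set of the points at which the velocities of the entire curves of order at most `ρ`
span the tangent space is somewhere dense. -/
def CurveSpan {X : Type} [TopologicalSpace X] [ChartedSpace (Cm n) X]
    (w : Chart n X → Cm n → Matrix (Fin n) (Fin n) ℂ) : Prop :=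
  ∃ ρ : ℝ, (interior (closure {x : X |
    Submodule.span ℂ {v : Cm n | ∃ f, FiniteOrderCurve w x v ρ f} = ⊤})).Nonempty

/-! ### Along a curve -/

/-- along the curve `τ`, `g - g z` is the germ of an entire function with derivative of growth `m` -/
def Cv (m : ℕ) (τ : ℂ → Cm n) (z : Cm n) (g : Cm n → ℂ) : Prop :=
  ∃ (A : ℂ → ℂ) (C : ℝ), Differentiable ℂ A ∧ (∀ t, ‖deriv A t‖ ≤ C * (1 + ‖t‖) ^ m) ∧
    ∀ᶠ t in 𝓝 (0 : ℂ), g (τ t) - g z = A t - A 0

theorem cv_zero {m : ℕ} {τ : ℂ → Cm n} {z : Cm n} : Cv m τ z 0 :=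
  ⟨0, 0, differentiable_const 0, fun t => by simp, by simp⟩

theorem Cv.add {m : ℕ} {τ : ℂ → Cm n} {z : Cm n} {g h : Cm n → ℂ} (hg : Cv m τ z g)
    (hh : Cv m τ z h) : Cv m τ z (g + h) := by
  obtain ⟨A, C, hA, hAC, hAe⟩ := hg
  obtain ⟨B, D, hB, hBD, hBe⟩ := hh
  refine ⟨fun t => A t + B t, C + D, hA.add hB, fun t => ?_, ?_⟩
  · have h1 : deriv (fun t => A t + B t) t = deriv A t + deriv B t := deriv_fun_add (hA t) (hB t)
    rw [h1, add_mul]
    exact (norm_add_le _ _).trans (add_le_add (hAC t) (hBD t))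
  · filter_upwards [hAe, hBe] with t h1 h2
    simp only [Pi.add_apply]
    linear_combination h1 + h2

theorem Cv.smul {m : ℕ} {τ : ℂ → Cm n} {z : Cm n} {g : Cm n → ℂ} (c : ℂ) (hg : Cv m τ z g) :
    Cv m τ z (c • g) := by
  obtain ⟨A, C, hA, hAC, hAe⟩ := hg
  refine ⟨fun t => c * A t, ‖c‖ * C, hA.const_mul c, fun t => ?_, ?_⟩
  · have h1 : deriv (fun t => c * A t) t = c * deriv A t := deriv_const_mul c (hA t)
    rw [h1, norm_mul, mul_assoc]
    exact mul_le_mul_of_nonneg_left (hAC t) (norm_nonneg c)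
  · filter_upwards [hAe] with t h1
    simp only [Pi.smul_apply, smul_eq_mul]
    linear_combination c * h1

/-- the leading form vanishes in the direction of the curve -/
theorem dl_zero_of_curve {U : Set (Cm n)} {g : Cm n → ℂ} (hU : IsOpen U)
    (hg : AnalyticOnNhd ℂ g U) {z : Cm n} (hz : z ∈ U) {m : ℕ} {τ : ℂ → Cm n} {v : Cm n}
    (hτ : HasDerivAt τ v 0) (hτ0 : τ 0 = z) (hc : Cv m τ z g) (hf : Fl (m + 2) g z) :
    DL (List.replicate (m + 2) v) g z = 0 := by
  obtain ⟨r, hr, hb⟩ := Metric.isOpen_iff.1 hU z hz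
  have hG : DifferentiableOn ℂ g (ball z r) := fun y hy =>
    (hg y (hb hy)).differentiableAt.differentiableWithinAt
  have hgz : g z = 0 := hf [] (by simp)
  obtain ⟨q, hq⟩ : ∃ q, q = m + 2 := ⟨_, rfl⟩
  rw [← hq] at hf ⊢
  have hz₀ : z ∈ ball z (r / 2) := mem_ball_self (by linarith)
  have hit : ∀ (k : ℕ) (v : Cm n),
      iteratedDeriv k (fun t : ℂ => g (z + t • v) - g z) 0 = DL (List.replicate k v) g z := by
    intro k v
    have e : (fun t : ℂ => g (z + t • v) - g z) = fun t : ℂ => g (z + t • v) := by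
      funext t
      rw [hgz, sub_zero]
    rw [e]
    have := line_iter hU hg z v k 0 (by simpa using hz)
    simpa using this
  have hV : Van q (ball z (r / 2)) (ff g z) := (van_iff hr).2 fun v =>
    bigO_of_jet hr hG fun k hk => by
      unfold jet
      rw [hit]
      exact hf _ (by simpa using hk)
  have hfd := ff_diff hG
  obtain ⟨A, C, hA, hC, he⟩ := hc
  have hy : HasDerivAt (fun t => τ t - z) v 0 := hτ.sub_const z
  have h2 := Vale.Agent.P284.H5.lead_curve isOpen_ball hfd hV hz₀ hy (by simp [hτ0])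
  have h3 : Tendsto (fun t : ℂ => (A t - A 0) / t ^ q) (𝓝[≠] 0)
      (𝓝 (Lead q (ff g z) z v)) := by
    refine h2.congr' ?_
    filter_upwards [he.filter_mono nhdsWithin_le_nhds] with t ht
    rw [ff_line, add_sub_cancel, ht]
  have h4 : (fun t => A t - A 0) =O[𝓝 0] fun t : ℂ => t ^ q := by
    have h5 : ∀ᶠ t in 𝓝[≠] (0 : ℂ),
        ‖(A t - A 0) / t ^ q‖ ≤ ‖Lead q (ff g z) z v‖ + 1 := by
      have := h3.norm.eventually (gt_mem_nhds (lt_add_one ‖Lead q (ff g z) z v‖))
      filter_upwards [this] with t ht using ht.le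
    rw [eventually_nhdsWithin_iff] at h5
    refine IsBigO.of_bound (‖Lead q (ff g z) z v‖ + 1) ?_
    filter_upwards [h5] with t ht
    rcases eq_or_ne t 0 with rfl | h0
    · simp only [sub_self, norm_zero]
      positivity
    · have h6 := ht h0
      rw [norm_div, div_le_iff₀ (norm_pos_iff.2 (pow_ne_zero _ h0))] at h6
      exact h6
  have h5 := flat_const hA hC hq.ge h4
  have h6 : Tendsto (fun t : ℂ => (A t - A 0) / t ^ q) (𝓝[≠] 0) (𝓝 0) := by
    refine tendsto_const_nhds.congr' ?_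
    filter_upwards [h5.filter_mono nhdsWithin_le_nhds] with t ht
    rw [ht, zero_div]
  have h7 := tendsto_nhds_unique h3 h6
  rw [Vale.Agent.P284.H5.lead_eq isOpen_ball hfd hV hz₀] at h7
  have h8 : (q.factorial : ℂ)⁻¹ ≠ 0 := inv_ne_zero (Nat.cast_ne_zero.2 q.factorial_ne_zero)
  have h9 := (mul_eq_zero.1 h7).resolve_left h8
  simp only [ff_line] at h9
  rw [← hit]
  exact h9

/-! ### The local section -/

section
variable {X : Type} [TopologicalSpace X] {E : Type} [TopologicalSpace E] {p : E → X}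

theorem sec_near (hp : IsCoveringMap p) {e : Chart n X} {y₀ : E} {r : ℝ} {σ : Cm n → E}
    (hσ : LSec p e y₀ r σ) {z : Cm n} (hz : z ∈ ball (e (p y₀)) r) :
    ∀ᶠ y in 𝓝 (σ z), σ (e (p y)) = y := by
  obtain ⟨ψ, hψ, hpψ⟩ := hp.isLocalHomeomorph (σ z)
  have hc1 : ContinuousAt (fun y => e (p y)) (σ z) :=
    ContinuousAt.comp (g := e) (f := p) (e.continuousAt (hσ.src z hz)) hp.continuous.continuousAt
  have hc2 : ContinuousAt (fun y => σ (e (p y))) (σ z) := by
    refine ContinuousAt.comp (g := σ) (f := fun y => e (p y)) ?_ hc1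
    rw [hσ.inv z hz]
    exact hσ.cont.continuousAt (isOpen_ball.mem_nhds hz)
  have h1 : ∀ᶠ y in 𝓝 (σ z), σ (e (p y)) ∈ ψ.source := by
    refine hc2.eventually (ψ.open_source.mem_nhds ?_)
    show σ (e (p (σ z))) ∈ ψ.source
    rw [hσ.inv z hz]
    exact hψ
  have h2 : ∀ᶠ y in 𝓝 (σ z), e (p y) ∈ ball (e (p y₀)) r := by
    refine hc1.eventually (isOpen_ball.mem_nhds ?_)
    show e (p (σ z)) ∈ ball (e (p y₀)) r
    rw [hσ.inv z hz]
    exact hz
  filter_upwards [h1, h2, ψ.open_source.mem_nhds hψ,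
    hp.continuous.continuousAt.eventually (e.open_source.mem_nhds (hσ.src z hz))] with y h1 h2 h3 h4
  refine ψ.injOn h1 h3 ?_
  rw [← hpψ]
  exact e.injOn (hσ.src _ h2) h4 (hσ.inv _ h2)

end

section
variable {X : Type} [TopologicalSpace X] [ChartedSpace (Cm n) X] [IsManifold 𝓘(ℂ, Cm n) ω X]
  {E : Type} [TopologicalSpace E]
  {p : E → X} {w : Chart n X → Cm n → Matrix (Fin n) (Fin n) ℂ} {u : E → ℝ} {B : ℝ}
  {f : ℂ → X}

/-- The Taylor expansion of `G ∘ e ∘ f` is that of an entire function with derivative of polynomial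
growth. -/
theorem curve_match' (hw : IsHermitian w) (hp : IsCoveringMap p) (hu : IsPHB p w u B) {y₀ : E}
    {e : Chart n X} (he : At e (p y₀)) {r : ℝ} {σ : Cm n → E} (hσ : LSec p e y₀ r σ) {z : Cm n}
    (hz : z ∈ ball (e (p y₀)) r) {v : Cm n} {ρ : ℝ} (hf : FiniteOrderCurve w (p (σ z)) v ρ f)
    {G : Cm n → ℂ} (hG : DifferentiableOn ℂ G (ball (e (p y₀)) r))
    (hGr : ∀ z ∈ ball (e (p y₀)) r, (G z).re = u (σ z)) {m : ℕ}
    (hm : ρ ≤ 2 * m) : Cv m (fun t => e (f t)) z G := by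
  obtain ⟨F, ⟨hF0, hpF'⟩, -⟩ :=
    hp.existsUnique_continuousMap_lifts ⟨f, hf.holo.continuous⟩ 0 (σ z) hf.base.symm
  have hpF : ∀ t, p (F t) = f t := fun t => congrFun hpF' t
  obtain ⟨A, hA, hAr, hAB⟩ := exists_entire hw hu F.continuous hpF hf.holo
  have hAt : At e (f 0) := by
    rw [hf.base]
    exact ⟨he.1, hσ.src z hz⟩
  have hτ := tau_sm hf.holo hAt
  have h0 : e (f 0) = z := by rw [hf.base]; exact hσ.inv z hz
  -- growth
  obtain ⟨C, hC⟩ := hf.order
  have hsc := speed_continuous hw hf.holo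
  have hsn := speed_nonneg hw hf.holo
  have hdA : Continuous (deriv A) := by
    have h2 : ContDiff ℂ 1 A := hA.contDiff
    exact h2.continuous_deriv le_rfl
  have hint : ∀ {g : ℂ → ℝ}, Continuous g → ∀ r : ℝ, IntegrableOn g (ball (0 : ℂ) r) :=
    fun hg r => (hg.continuousOn.integrableOn_compact
      (isCompact_closedBall 0 r)).mono_set ball_subset_closedBall
  obtain ⟨C', hC'⟩ := growth hA (C := 2 * |B| * C) (ρ := ρ) (fun r hr => by
    calc ∫ t in ball (0 : ℂ) r, ‖deriv A t‖ ^ 2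
        ≤ ∫ t in ball (0 : ℂ) r, 2 * |B| * speedSq w f t := by
          refine setIntegral_mono_on (hint (hdA.norm.pow 2) r)
            (hint (continuous_const.mul hsc) r) measurableSet_ball fun t _ => ?_
          refine (hAB t).trans ?_
          exact mul_le_mul_of_nonneg_right
            (mul_le_mul_of_nonneg_left (le_abs_self B) (by norm_num)) (hsn t)
      _ = 2 * |B| * ∫ t in ball (0 : ℂ) r, speedSq w f t := integral_const_mul _ _
      _ ≤ 2 * |B| * (C * r ^ ρ) := mul_le_mul_of_nonneg_left (hC r hr) (by positivity)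
      _ = _ := by ring) hm
  refine ⟨A, C', hA, hC', ?_⟩
  -- matching
  have h1 : ∀ᶠ t in 𝓝 (0 : ℂ), e (f t) ∈ ball (e (p y₀)) r := by
    refine hτ.continuousAt.eventually (isOpen_ball.mem_nhds ?_)
    show e (f 0) ∈ ball (e (p y₀)) r
    rw [h0]
    exact hz
  have h2 : ∀ᶠ t in 𝓝 (0 : ℂ), σ (e (p (F t))) = F t := by
    have h3 : Tendsto F (𝓝 0) (𝓝 (σ z)) := by
      have := F.continuous.tendsto 0
      rwa [hF0] at this
    exact h3.eventually (sec_near hp hσ hz)
  have h3 : ∀ᶠ t in 𝓝 (0 : ℂ), DifferentiableAt ℂ (fun t => e (f t)) t := by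
    filter_upwards [hτ.eventually (by simp)] with t ht
    exact ht.differentiableAt (by simp)
  obtain ⟨δ, hδ, hb⟩ := Metric.eventually_nhds_iff_ball.1 (h1.and (h2.and h3))
  have h4 : ∀ t ∈ ball (0 : ℂ) δ, DifferentiableAt ℂ (fun t => G (e (f t)) - A t) t := by
    intro t ht
    obtain ⟨ha, -, hc⟩ := hb t ht
    have h5 : DifferentiableAt ℂ G (e (f t)) := hG.differentiableAt (isOpen_ball.mem_nhds ha)
    exact (DifferentiableAt.comp (g := G) t h5 hc).sub (hA t)
  have h5 : ∀ t ∈ ball (0 : ℂ) δ, (G (e (f t)) - A t).re = 0 := by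
    intro t ht
    obtain ⟨ha, hb', -⟩ := hb t ht
    rw [Complex.sub_re, hGr _ ha, hAr, ← hpF t, hb', sub_self]
  have h6 : ∀ t ∈ ball (0 : ℂ) δ, G (e (f t)) - A t = G (e (f 0)) - A 0 := by
    intro t ht
    refine isOpen_ball.is_const_of_deriv_eq_zero (f := fun t => G (e (f t)) - A t)
      (convex_ball (0 : ℂ) δ).isPreconnected
      (fun s hs => (h4 s hs).differentiableWithinAt) ?_ ht (mem_ball_self hδ)
    intro s hs
    refine deriv_zero_of_re (h4 s hs).hasDerivAt ?_
    filter_upwards [isOpen_ball.mem_nhds hs] with s' hs'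
    exact h5 s' hs'
  filter_upwards [ball_mem_nhds (0 : ℂ) hδ] with t ht
  have h7 := h6 t ht
  rw [h0] at h7
  linear_combination h7

/-- the velocities in another chart -/
theorem vel_change {x : X} {e : Chart n X} (he : At e x) {v : Cm n} {ρ : ℝ}
    (hf : FiniteOrderCurve w x v ρ f) :
    v = fderiv ℂ (fun z => chartAt (Cm n) x (e.symm z)) (e x) (deriv (fun s => e (f s)) 0) := by
  have hAt : At (chartAt (Cm n) x) (f 0) := by rw [hf.base]; exact at_chartAt _
  have he' : At e (f 0) := by rw [hf.base]; exact he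
  have h1 : deriv (fun s => chartAt (Cm n) x (f s)) 0 = v := by
    rw [← vel_eq hf.holo hAt]
    funext k
    exact hf.vel k
  have hd1 : DifferentiableAt ℂ (fun s => e (f s)) 0 :=
    (tau_sm hf.holo he').differentiableAt (by simp)
  have hd2 := transition_differentiableAt he' hAt
  have h2 : (fun s => chartAt (Cm n) x (f s)) =ᶠ[𝓝 0]
      fun s => chartAt (Cm n) x (e.symm (e (f s))) := by
    filter_upwards [at_nr hf.holo he'] with ξ hξ
    rw [hξ.left_inv]
  have h3 : HasDerivAt (fun s => chartAt (Cm n) x (e.symm (e (f s))))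
      (fderiv ℂ (fun z => chartAt (Cm n) x (e.symm z)) (e (f 0)) (deriv (fun s => e (f s)) 0)) 0 :=
    HasFDerivAt.comp_hasDerivAt (l := fun z => chartAt (Cm n) x (e.symm z))
      (f := fun s => e (f s)) 0 hd2.hasFDerivAt hd1.hasDerivAt
  rw [← h1, h2.deriv_eq, h3.deriv, hf.base]

theorem span_change {x : X} {e : Chart n X} (he : At e x) {ρ : ℝ}
    (h : Submodule.span ℂ {v : Cm n | ∃ f, FiniteOrderCurve w x v ρ f} = ⊤) :
    Submodule.span ℂ {v' : Cm n | ∃ v f, FiniteOrderCurve w x v ρ f ∧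
      v' = deriv (fun s => e (f s)) 0} = ⊤ := by
  set D := {v' : Cm n | ∃ v f, FiniteOrderCurve w x v ρ f ∧ v' = deriv (fun s => e (f s)) 0}
  set T := (fderiv ℂ (fun z => chartAt (Cm n) x (e.symm z)) (e x)).toLinearMap
  have h1 : (⊤ : Submodule ℂ (Cm n)) ≤ (Submodule.span ℂ D).map T := by
    rw [← h, Submodule.span_le]
    rintro v ⟨f, hf⟩
    exact ⟨_, Submodule.subset_span ⟨v, f, hf, rfl⟩, (vel_change he hf).symm⟩
  have h2 := Submodule.finrank_mono h1
  have h3 := Submodule.finrank_map_le T (Submodule.span ℂ D)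
  exact Submodule.eq_top_of_finrank_eq (le_antisymm (Submodule.finrank_le _) (by
    rw [finrank_top] at h2
    exact h2.trans h3))

end

/-! ### The theorem -/

theorem DL_add {U : Set (Cm n)} {g h : Cm n → ℂ} (hU : IsOpen U) (hg : AnalyticOnNhd ℂ g U)
    (hh : AnalyticOnNhd ℂ h U) (L : List (Cm n)) {z : Cm n} (hz : z ∈ U) :
    DL L (fun z => g z + h z) z = DL L g z + DL L h z := by
  have h1 := DL_sum (Finset.univ : Finset (Fin 2)) ![1, 1] ![g, h] hU (by
    intro i _
    fin_cases i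
    · exact hg
    · exact hh) L z hz
  simpa [Fin.sum_univ_two] using h1

theorem DL_mul {U : Set (Cm n)} {g : Cm n → ℂ} (hU : IsOpen U) (hg : AnalyticOnNhd ℂ g U)
    (c : ℂ) (L : List (Cm n)) {z : Cm n} (hz : z ∈ U) :
    DL L (fun z => c * g z) z = c * DL L g z := by
  have h1 := DL_sum (Finset.univ : Finset (Fin 1)) ![c] ![g] hU (by
    intro i _
    fin_cases i
    exact hg) L z hz
  simpa using h1

/-- **Spanning curves of finite order**: finite dimension. -/
theorem fdSpan {n : ℕ} {X : Type} [TopologicalSpace X] [T2Space X] [CompactSpace X]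
    [ConnectedSpace X] [ChartedSpace (Cm n) X] [IsManifold 𝓘(ℂ, Cm n) ω X]
    (w : Chart n X → Cm n → Matrix (Fin n) (Fin n) ℂ) (hw : IsHermitian w)
    (h : CurveSpan w) (E : Type) [TopologicalSpace E] [ConnectedSpace E] (p : E → X)
    (hp : IsCoveringMap p) (hs : Function.Surjective p) :
    ∃ V : Submodule ℝ (E → ℝ), FiniteDimensional ℝ V ∧ ∀ u, u ∈ V ↔ ∃ B, IsPHB p w u B := by
  obtain ⟨ρ, x₁, hx₁⟩ := h
  obtain ⟨Px, hPx⟩ : ∃ Px : Set X, Px = {x : X |
    Submodule.span ℂ {v : Cm n | ∃ f, FiniteOrderCurve w x v ρ f} = ⊤} := ⟨_, rfl⟩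
  rw [← hPx] at hx₁
  obtain ⟨y₀, rfl⟩ := hs x₁
  obtain ⟨m, hm⟩ : ∃ m : ℕ, ρ ≤ 2 * m := by
    obtain ⟨m, hm⟩ := exists_nat_ge ρ
    exact ⟨m, by have : (0 : ℝ) ≤ m := Nat.cast_nonneg m
                 linarith⟩
  obtain ⟨e, he⟩ : ∃ e : Chart n X, e = chartAt (Cm n) (p y₀) := ⟨_, rfl⟩
  have hAt : At e (p y₀) := by rw [he]; exact at_chartAt _
  obtain ⟨r, σ, hσ⟩ := exists_lsec hp (e := e) hAt.2
  obtain ⟨z₀, hz₀⟩ : ∃ z₀ : Cm n, z₀ = e (p y₀) := ⟨_, rfl⟩
  have hr := hσ.pos
  have hsz : σ z₀ = y₀ := by rw [hz₀]; exact hσ.near.self_of_nhds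
  -- the ball
  have hNo : IsOpen (e.target ∩ e.symm ⁻¹' (interior (closure Px))) :=
    e.isOpen_inter_preimage_symm isOpen_interior
  have hNm : z₀ ∈ e.target ∩ e.symm ⁻¹' (interior (closure Px)) := by
    rw [hz₀]
    refine ⟨e.map_source hAt.2, ?_⟩
    show e.symm (e (p y₀)) ∈ interior (closure Px)
    rw [e.left_inv hAt.2]
    exact hx₁
  obtain ⟨r₀, hr₀, hb₀⟩ := Metric.isOpen_iff.1 hNo _ hNm
  obtain ⟨U, hUd⟩ : ∃ U, U = ball z₀ (min r r₀) := ⟨_, rfl⟩
  have hU : IsOpen U := by rw [hUd]; exact isOpen_ball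
  have hUc : Convex ℝ U := by rw [hUd]; exact convex_ball _ _
  have hz₀U : z₀ ∈ U := by rw [hUd]; exact mem_ball_self (lt_min hr hr₀)
  have hUr : U ⊆ ball z₀ r := by rw [hUd]; exact ball_subset_ball (min_le_left _ _)
  have hUN : U ⊆ e.target ∩ e.symm ⁻¹' (interior (closure Px)) := by
    rw [hUd]; exact (ball_subset_ball (min_le_right _ _)).trans hb₀
  -- primitives
  have hex : ∀ u : phb p w, ∃ G : Cm n → ℂ, DifferentiableOn ℂ G (ball z₀ r) ∧
      (∀ z ∈ ball z₀ r, (G z).re = (u : E → ℝ) (σ z)) ∧ (G z₀).im = 0 := by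
    rintro ⟨u, B, hu⟩
    obtain ⟨G, hG1, hG2⟩ := sec_re hu hAt hσ
    rw [← hz₀] at hG1 hG2
    refine ⟨fun z => G z - Complex.I * ((G z₀).im : ℂ), hG1.sub_const _, fun z hz => ?_, ?_⟩
    · have h2 := hG2 z hz
      simp only [Complex.sub_re, Complex.mul_re, Complex.I_re, Complex.ofReal_re, Complex.I_im,
        Complex.ofReal_im]
      linarith
    · simp
  choose g hg1 hg2 hg3 using hex
  have hadd : ∀ a b : phb p w, ∀ z ∈ ball z₀ r, g (a + b) z = g a z + g b z := by
    intro a b z hz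
    have h1 := Vale.Agent.P301.H949.const_of_re_zero (D := fun z => g (a + b) z - g a z - g b z)
      isOpen_ball (convex_ball z₀ r) (((hg1 (a + b)).sub (hg1 a)).sub (hg1 b))
      (fun y hy => by
        rw [Complex.sub_re, Complex.sub_re, hg2 _ y hy, hg2 _ y hy, hg2 _ y hy]
        show ((a : E → ℝ) + (b : E → ℝ)) (σ y) - _ - _ = 0
        rw [Pi.add_apply]
        ring) hz (mem_ball_self hr)
    have h2 : g (a + b) z - g a z - g b z = g (a + b) z₀ - g a z₀ - g b z₀ := h1
    have h3 : g (a + b) z₀ - g a z₀ - g b z₀ = 0 := by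
      apply Complex.ext
      · rw [Complex.sub_re, Complex.sub_re, hg2 _ z₀ (mem_ball_self hr),
          hg2 _ z₀ (mem_ball_self hr), hg2 _ z₀ (mem_ball_self hr)]
        show ((a : E → ℝ) + (b : E → ℝ)) (σ z₀) - _ - _ = 0
        rw [Pi.add_apply]
        ring
      · rw [Complex.sub_im, Complex.sub_im, hg3, hg3, hg3]
        simp
    linear_combination h2 + h3
  have hsmul : ∀ (c : ℝ) (a : phb p w), ∀ z ∈ ball z₀ r, g (c • a) z = (c : ℂ) * g a z := by
    intro c a z hz
    have h1 := Vale.Agent.P301.H949.const_of_re_zero (D := fun z => g (c • a) z - (c : ℂ) * g a z)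
      isOpen_ball (convex_ball z₀ r) ((hg1 (c • a)).sub ((hg1 a).const_mul (c : ℂ)))
      (fun y hy => by
        rw [Complex.sub_re, Complex.re_ofReal_mul, hg2 _ y hy, hg2 _ y hy]
        show (c • (a : E → ℝ)) (σ y) - _ = 0
        rw [Pi.smul_apply, smul_eq_mul]
        ring) hz (mem_ball_self hr)
    have h2 : g (c • a) z - (c : ℂ) * g a z = g (c • a) z₀ - (c : ℂ) * g a z₀ := h1
    have h3 : g (c • a) z₀ - (c : ℂ) * g a z₀ = 0 := by
      apply Complex.ext
      · rw [Complex.sub_re, Complex.re_ofReal_mul, hg2 _ z₀ (mem_ball_self hr),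
          hg2 _ z₀ (mem_ball_self hr)]
        show (c • (a : E → ℝ)) (σ z₀) - _ = 0
        rw [Pi.smul_apply, smul_eq_mul]
        simp
      · rw [Complex.sub_im, Complex.im_ofReal_mul, hg3, hg3]
        simp
    linear_combination h2 + h3
  have hgan : ∀ a : phb p w, AnalyticOnNhd ℂ (g a) U := fun a z hz =>
    Vale.Agent.P281.MF.analyticAt_of_differentiableOn isOpen_ball (hg1 a) (hUr hz)
  -- the complex space
  obtain ⟨𝓖, h𝓖⟩ : ∃ 𝓖 : Submodule ℂ (Cm n → ℂ), 𝓖 = Submodule.span ℂ (range g) := ⟨_, rfl⟩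
  have han : ∀ k ∈ 𝓖, AnalyticOnNhd ℂ k U := by
    intro k hk
    rw [h𝓖] at hk
    induction hk using Submodule.span_induction with
    | mem k hk =>
      obtain ⟨a, rfl⟩ := hk
      exact hgan a
    | zero => exact analyticOnNhd_const
    | add a b _ _ ha hb => exact ha.add hb
    | smul c a _ ha => exact fun z hz => (analyticAt_const (v := c)).smul (ha z hz)
  -- density
  have hP : ∀ O ⊆ U, IsOpen O → O.Nonempty → (O ∩ {z | e.symm z ∈ Px}).Nonempty := by
    rintro O hOU hO ⟨z, hz⟩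
    have hzN := hUN (hOU hz)
    have h1 : e.symm z ∈ closure Px := interior_subset hzN.2
    have h2 : IsOpen (e.source ∩ e ⁻¹' O) := e.isOpen_inter_preimage hO
    have h3 : e.symm z ∈ e.source ∩ e ⁻¹' O := by
      refine ⟨e.map_target hzN.1, ?_⟩
      show e (e.symm z) ∈ O
      rw [e.right_inv hzN.1]
      exact hz
    obtain ⟨x', hx', hx'P⟩ := mem_closure_iff.1 h1 _ h2 h3
    refine ⟨e x', hx'.2, ?_⟩
    show e.symm (e x') ∈ Px
    rw [e.left_inv hx'.1]
    exact hx'P
  -- the directions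
  have hD : ∀ z ∈ U, z ∈ {z | e.symm z ∈ Px} → ∃ D : Set (Cm n),
      Submodule.span ℂ D = ⊤ ∧ ∀ v ∈ D, ∀ k ∈ 𝓖,
      Fl (m + 2) k z → DL (List.replicate (m + 2) v) k z = 0 := by
    intro z hz hzP
    have hzr : z ∈ ball (e (p y₀)) r := by rw [← hz₀]; exact hUr hz
    have hpz : p (σ z) = e.symm z := by
      have h1 := hσ.inv z hzr
      rw [← h1, e.left_inv (hσ.src z hzr), h1]
    have hAtz : At e (p (σ z)) := ⟨hAt.1, hσ.src z hzr⟩
    have hsp : Submodule.span ℂ {v : Cm n | ∃ f, FiniteOrderCurve w (p (σ z)) v ρ f} = ⊤ := by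
      have h1 : e.symm z ∈ Px := hzP
      rw [hPx] at h1
      rw [hpz]
      exact h1
    refine ⟨_, span_change hAtz hsp, ?_⟩
    rintro v' ⟨v, f, hf, rfl⟩ k hk hfl
    have hAt0 : At e (f 0) := by rw [hf.base]; exact hAtz
    have hd : HasDerivAt (fun t => e (f t)) (deriv (fun t => e (f t)) 0) 0 :=
      ((tau_sm hf.holo hAt0).differentiableAt (by simp)).hasDerivAt
    have h0 : e (f 0) = z := by rw [hf.base]; exact hσ.inv z hzr
    refine dl_zero_of_curve hU (han k hk) hz hd h0 ?_ hfl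
    rw [h𝓖] at hk
    clear hfl
    induction hk using Submodule.span_induction with
    | mem k hk =>
      obtain ⟨a, rfl⟩ := hk
      obtain ⟨B, hB⟩ := a.2
      refine curve_match' hw hp hB hAt hσ hzr hf ?_ ?_ hm
      · rw [← hz₀]; exact hg1 a
      · rw [← hz₀]; exact hg2 a
    | zero => exact cv_zero
    | add a b _ _ ha hb => exact ha.add hb
    | smul c a _ ha => exact ha.smul c
  obtain ⟨z, hz, K, hK⟩ := finite_type hU hUc ⟨z₀, hz₀U⟩ han hP hD
  refine ⟨phb p w, ?_, fun u => Iff.rfl⟩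
  have hJadd : ∀ a b : phb p w, J K (g (a + b)) z = J K (g a) z + J K (g b) z := by
    intro a b
    funext l
    show DL _ _ _ = DL _ _ _ + DL _ _ _
    rw [DL_congr hU (fun y hy => hadd a b y (hUr hy)) _ z hz, DL_add hU (hgan a) (hgan b) _ hz]
  have hJsmul : ∀ (c : ℝ) (a : phb p w), J K (g (c • a)) z = c • J K (g a) z := by
    intro c a
    funext l
    show DL _ _ _ = c • DL _ _ _
    rw [DL_congr hU (fun y hy => hsmul c a y (hUr hy)) _ z hz, DL_mul hU (hgan a) _ _ hz,
      Complex.real_smul]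
  let T : phb p w →ₗ[ℝ] (Wd n K → ℂ) :=
    { toFun := fun u => J K (g u) z
      map_add' := hJadd
      map_smul' := hJsmul }
  have hT : Function.Injective T := by
    rw [injective_iff_map_eq_zero]
    intro a ha
    have h1 : J K (g a) z = 0 := ha
    have hm𝓖 : g a ∈ 𝓖 := by rw [h𝓖]; exact Submodule.subset_span ⟨a, rfl⟩
    have h2 := hK (g a) hm𝓖 ((fl_iff hU (hgan a) hz K).2 h1)
    have h3 : ∀ᶠ y in 𝓝 y₀, (a : E → ℝ) y = 0 := by
      have hq : Tendsto (fun y' => e (p y')) (𝓝 y₀) (𝓝 z₀) := by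
        rw [hz₀]
        exact (map_nhds_chart hp hAt.2).le
      filter_upwards [hσ.near, hq.eventually (hU.mem_nhds hz₀U)] with y h4 h5
      have h6 := hg2 a _ (hUr h5)
      rw [h2 _ h5, h4] at h6
      exact h6.symm
    obtain ⟨B, hB⟩ := a.2
    refine Subtype.ext ?_
    funext y
    exact eq_const_of_eventually hp hB h3 y
  exact FiniteDimensional.of_injective T hT

end Vale.Agent.P284.H639.S
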